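import Vale.Agent.P066.Window.Elem

/-!
The two commuting variables and the operators built from them.
-/

namespace Vale.Agent.P066.Window

variable {N : ℕ} {R : Type*} [CommRing R] [IsDomain R] (q : R) (x : Fin N → R)

/-- The parameter is neither `0` nor `1`. -/
structure Gen : Prop where
  ne0 : q ≠ 0
  ne1 : q ≠ 1

variable {q}

theorem cancel_q (hq : Gen q) {ι : Type*} {u v : ι → R} (h : q • u = q • v) : u = v :=
  funext fun i => mul_left_cancel₀ hq.ne0 (congrFun h i)

variable (q)

theorem T_sq (v : Fin N × Fin N → R) : opT q (opT q v) = (1 - q) • opT q v + q • v :=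
  LinearMap.congr_fun (opT_sq (N := N) q) v

theorem T_Y2 (v : Fin N × Fin N → R) : opT q (opY2 q x v) = opW q x v :=
  LinearMap.congr_fun (opT_opY2 q x) v

theorem W_T (v : Fin N × Fin N → R) : opW q x (opT q v) = q • opY1 q x v :=
  LinearMap.congr_fun (opW_opT q x) v

theorem WW_T (v : Fin N × Fin N → R) :
    opW q x (opW q x (opT q v)) = opT q (opW q x (opW q x v)) :=
  LinearMap.congr_fun (opWW_opT q x) v

variable {q}

theorem T_inj (hq : Gen q) {u v : Fin N × Fin N → R} (h : opT q u = opT q v) : u = v := by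
  apply cancel_q hq
  have h2 := T_sq q u
  rw [h, T_sq q v] at h2
  exact (add_left_cancel h2).symm

theorem Y_comm (hq : Gen q) (v : Fin N × Fin N → R) :
    opY1 q x (opY2 q x v) = opY2 q x (opY1 q x v) := by
  apply T_inj hq
  apply cancel_q hq
  rw [← map_smul (opT q) q (opY1 q x (opY2 q x v)), ← W_T q x, T_Y2,
    ← map_smul (opT q) q (opY2 q x (opY1 q x v)), ← map_smul (opY2 q x) q (opY1 q x v), T_Y2,
    ← W_T q x]
  exact (WW_T q x v).symm

theorem Y1_T (hq : Gen q) (v : Fin N × Fin N → R) :
    opY1 q x (opT q v) = (1 - q) • opY1 q x v + opW q x v := by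
  apply cancel_q hq
  rw [← W_T q x, T_sq, map_add, map_smul, map_smul, W_T]
  module

theorem T_Y1 (hq : Gen q) (v : Fin N × Fin N → R) :
    opT q (opY1 q x v) = opY2 q x (opT q v) + (1 - q) • opY1 q x v := by
  apply cancel_q hq
  rw [← map_smul, ← W_T q x, ← T_Y2, T_sq, T_Y2, W_T]
  module

/-- The sum of the two variables. -/
def opS : Module.End R (Fin N × Fin N → R) := opY1 q x + opY2 q x

/-- The product of the two variables. -/
def opP : Module.End R (Fin N × Fin N → R) := opY1 q x * opY2 q x

theorem opS_apply (v : Fin N × Fin N → R) :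
    opS (q := q) x v = opY1 q x v + opY2 q x v := rfl

theorem opP_apply (v : Fin N × Fin N → R) : opP (q := q) x v = opY1 q x (opY2 q x v) := rfl

theorem T_S (hq : Gen q) (v : Fin N × Fin N → R) :
    opT q (opS (q := q) x v) = opS (q := q) x (opT q v) := by
  rw [opS_apply, opS_apply, map_add, T_Y1 x hq, T_Y2, Y1_T x hq]
  module

theorem T_P (hq : Gen q) (v : Fin N × Fin N → R) :
    opT q (opP (q := q) x v) = opP (q := q) x (opT q v) := by
  rw [opP_apply, opP_apply, T_Y1 x hq, T_Y2, Y_comm x hq (opT q v), Y1_T x hq, Y_comm x hq v,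
    map_add, map_smul]
  module

theorem Y1_S (hq : Gen q) (v : Fin N × Fin N → R) :
    opY1 q x (opS (q := q) x v) = opS (q := q) x (opY1 q x v) := by
  rw [opS_apply, opS_apply, map_add, Y_comm x hq]

theorem Y2_S (hq : Gen q) (v : Fin N × Fin N → R) :
    opY2 q x (opS (q := q) x v) = opS (q := q) x (opY2 q x v) := by
  rw [opS_apply, opS_apply, map_add, Y_comm x hq]

theorem Y1_P (hq : Gen q) (v : Fin N × Fin N → R) :
    opY1 q x (opP (q := q) x v) = opP (q := q) x (opY1 q x v) := by
  rw [opP_apply, opP_apply, ← Y_comm x hq]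

theorem Y2_P (hq : Gen q) (v : Fin N × Fin N → R) :
    opY2 q x (opP (q := q) x v) = opP (q := q) x (opY2 q x v) := by
  rw [opP_apply, opP_apply, ← Y_comm x hq]

variable (q)

/-- Multiplication by the elementary function of the colours outside both variables. -/
def opM : ℕ → Module.End R (Fin N × Fin N → R)
  | 0 => 1
  | 1 => es x 1 • 1 - opS (q := q) x
  | r + 2 => es x (r + 2) • 1 - opS (q := q) x * opM (r + 1) - opP (q := q) x * opM r

/-- The same with the newest variable only. -/
def opN : ℕ → Module.End R (Fin N × Fin N → R)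
  | 0 => 1
  | r + 1 => es x (r + 1) • 1 - opY1 q x * opN r

/-- The one-vertex version. -/
def opN1 : ℕ → Module.End R (Fin N → R)
  | 0 => 1
  | r + 1 => es x (r + 1) • 1 - opY q x * opN1 r

theorem opN_succ (r : ℕ) (v : Fin N × Fin N → R) :
    opN q x (r + 1) v = es x (r + 1) • v - opY1 q x (opN q x r v) := rfl

theorem opN1_succ (r : ℕ) (v : Fin N → R) :
    opN1 q x (r + 1) v = es x (r + 1) • v - opY q x (opN1 q x r v) := rfl

theorem opM_succ_succ (r : ℕ) (v : Fin N × Fin N → R) :
    es x (r + 2) • v = opM q x (r + 2) v + opS (q := q) x (opM q x (r + 1) v)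
      + opP (q := q) x (opM q x r v) := by
  simp only [opM, LinearMap.sub_apply, LinearMap.smul_apply, Module.End.mul_apply,
    Module.End.one_apply]
  abel

theorem opM_one (v : Fin N × Fin N → R) :
    es x 1 • v = opM q x 1 v + opS (q := q) x v := by
  simp only [opM, LinearMap.sub_apply, LinearMap.smul_apply, Module.End.one_apply]
  abel

theorem opM_comm (A : Module.End R (Fin N × Fin N → R))
    (hS : ∀ v, A (opS (q := q) x v) = opS (q := q) x (A v))
    (hP : ∀ v, A (opP (q := q) x v) = opP (q := q) x (A v)) :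
    ∀ r v, A (opM q x r v) = opM q x r (A v)
  | 0, v => rfl
  | 1, v => by simp [opM, hS]
  | r + 2, v => by simp [opM, hS, hP, opM_comm A hS hP r, opM_comm A hS hP (r + 1)]

variable {q}

theorem T_M (hq : Gen q) (r : ℕ) (v : Fin N × Fin N → R) :
    opT q (opM q x r v) = opM q x r (opT q v) :=
  opM_comm q x _ (T_S x hq) (T_P x hq) r v

theorem Y1_M (hq : Gen q) (r : ℕ) (v : Fin N × Fin N → R) :
    opY1 q x (opM q x r v) = opM q x r (opY1 q x v) :=
  opM_comm q x _ (Y1_S x hq) (Y1_P x hq) r v

theorem Y2_M (hq : Gen q) (r : ℕ) (v : Fin N × Fin N → R) :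
    opY2 q x (opM q x r v) = opM q x r (opY2 q x v) :=
  opM_comm q x _ (Y2_S x hq) (Y2_P x hq) r v

theorem M_M (hq : Gen q) (a c : ℕ) (v : Fin N × Fin N → R) :
    opM q x a (opM q x c v) = opM q x c (opM q x a v) :=
  opM_comm q x _
    (fun w => by rw [opS_apply, opS_apply, map_add, ← Y1_M x hq, ← Y2_M x hq])
    (fun w => by rw [opP_apply, opP_apply, ← Y1_M x hq, ← Y2_M x hq]) c v

theorem N_eq_M (hq : Gen q) : ∀ r v, opN q x (r + 1) v
    = opM q x (r + 1) v + opY2 q x (opM q x r v)
  | 0, v => by
    rw [opN_succ, opM_one q x, opS_apply]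
    simp [opN, opM, opS_apply]
    abel
  | r + 1, v => by
    rw [opN_succ, N_eq_M hq r v, opM_succ_succ q x, map_add, opS_apply, opP_apply]
    abel

theorem D_N (r : ℕ) (v : Fin N × Fin N → R) : opD (opN q x r v) = opN1 q x r (opD v) := by
  induction r with
  | zero => rfl
  | succ r ih =>
    have h := LinearMap.congr_fun (opD_opY1 q x) (opN q x r v)
    simp only [LinearMap.comp_apply] at h
    rw [opN_succ, opN1_succ, map_sub, map_smul, h, ih]

theorem N1_Y (r : ℕ) (v : Fin N → R) :
    opN1 q x r (opY q x v) = opY q x (opN1 q x r v) := by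
  induction r with
  | zero => rfl
  | succ r ih => rw [opN1_succ, opN1_succ, ih, map_sub, map_smul]

theorem N1_x (r : ℕ) : opN1 q x r x = bv q x r := by
  induction r with
  | zero => rfl
  | succ r ih => rw [opN1_succ, ih, bv]

theorem N1_comm (a c : ℕ) (v : Fin N → R) :
    opN1 q x a (opN1 q x c v) = opN1 q x c (opN1 q x a v) := by
  induction c with
  | zero => rfl
  | succ c ih => rw [opN1_succ, opN1_succ, map_sub, map_smul, N1_Y, ih]

end Vale.Agent.P066.Window
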