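import Vale.Agent.P066.Window.FourCone

/-!
The colouring sum of a natural unit interval graph with `g a ≤ a + 3` and no two consecutive
windows of four, built vertex by vertex.
-/

namespace Vale.Agent.P066.Window

open Finset

section Rec

variable {N : ℕ} {R : Type*} [CommRing R] (q : R) (x : Fin N → R) (g : ℕ → ℕ)

/-- Weight of one edge. -/
def ew (c d : Fin N) : R := if c = d then 0 else qi q c d

/-- Weight of a colouring of the first `k` vertices. -/
def wt (k : ℕ) (f : Fin k → Fin N) : R :=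
  ∏ b : Fin k, (x (f b) * ∏ a : Fin k, if a < b ∧ (b : ℕ) ≤ g a then ew q (f a) (f b) else 1)

/-- The colouring sum of the first `k` vertices. -/
def zs (k : ℕ) : R := ∑ f : Fin k → Fin N, wt q x g k f

/-- The colouring sum of `k + 1` vertices with the last colour fixed. -/
def s1 (k : ℕ) : Fin N → R := fun β => ∑ f : Fin k → Fin N, wt q x g (k + 1) (Fin.snoc f β)

/-- The colouring sum of `k + 2` vertices with the last two colours fixed. -/
def s2 (k : ℕ) : Fin N × Fin N → R := fun p =>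
  ∑ f : Fin k → Fin N, wt q x g (k + 2) (Fin.snoc (Fin.snoc f p.1) p.2)

theorem wt_snoc (k : ℕ) (f : Fin k → Fin N) (β : Fin N) :
    wt q x g (k + 1) (Fin.snoc f β)
      = wt q x g k f * (x β * ∏ a : Fin k, if k ≤ g a then ew q (f a) β else 1) := by
  have hl : ∀ i : Fin k, ¬ Fin.last k < i.castSucc := fun i => (Fin.castSucc_lt_last i).not_gt
  simp [wt, Fin.prod_univ_castSucc, Fin.castSucc_lt_last, hl]

theorem sum_snoc {M : Type*} [AddCommMonoid M] (k : ℕ) (F : (Fin (k + 1) → Fin N) → M) :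
    (∑ f : Fin (k + 1) → Fin N, F f) = ∑ β, ∑ f : Fin k → Fin N, F (Fin.snoc f β) := by
  rw [← Fintype.sum_prod_type']
  exact (Fintype.sum_equiv (Fin.snocEquiv fun _ => Fin N) _ _ fun _ => rfl).symm

theorem zs_zero : zs q x g 0 = 1 := by simp [zs, wt]

theorem zs_succ (k : ℕ) : zs q x g (k + 1) = tot (s1 q x g k) := by
  simp only [zs, sum_snoc]; rfl

theorem s1_isolated (k : ℕ) (h : ∀ a < k, g a < k) : s1 q x g k = zs q x g k • x := by
  funext β
  simp [s1, zs, wt_snoc, fun a : Fin k => (h a a.is_lt).not_ge, sum_mul]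

theorem wt_diag (m : ℕ) (hm : m + 1 ≤ g m) (f : Fin m → Fin N) (α : Fin N) :
    wt q x g (m + 2) (Fin.snoc (Fin.snoc f α) α) = 0 := by
  rw [wt_snoc, prod_eq_zero (mem_univ (Fin.last m)) (by simp [hm, ew])]
  simp

theorem s1_edge (m : ℕ) (hm : m + 1 ≤ g m) : s1 q x g (m + 1) = opD (s2 q x g m) := by
  funext β
  simp only [s1, s2, sum_snoc, opD, LinearMap.coe_mk, AddHom.coe_mk]
  refine sum_congr rfl fun α _ => ?_
  by_cases h : α = β
  · subst h; simp [wt_diag q x g m hm]
  · rw [if_pos h]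

theorem s2_U (m : ℕ) (hm : m + 1 ≤ g m) (h : ∀ a < m, g a < m + 1) :
    s2 q x g m = opU q x (s1 q x g m) := by
  funext p
  simp only [s1, s2, opU, LinearMap.coe_mk, AddHom.coe_mk]
  by_cases hp : p.1 = p.2
  · rw [if_neg (by simpa using hp), ← hp]; simp [wt_diag q x g m hm]
  · rw [if_pos hp, mul_sum]
    refine sum_congr rfl fun f _ => ?_
    rw [wt_snoc q x g (m + 1), Fin.prod_univ_castSucc]
    simp [fun a : Fin m => (h a a.is_lt).not_ge, hm, ew, hp]
    ring

theorem s2_DU (l : ℕ) (h1 : l + 1 ≤ g l) (h2 : l + 2 ≤ g (l + 1)) (h3 : l + 2 ≤ g l)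
    (h : ∀ a < l, g a < l + 2) : s2 q x g (l + 1) = opDU q x (s2 q x g l) := by
  funext p
  simp only [opDU, LinearMap.coe_mk, AddHom.coe_mk]
  simp only [s2, sum_snoc]
  by_cases hp : p.1 = p.2
  · rw [if_neg (by simpa using hp), ← hp]; simp [wt_diag q x g (l + 1) h2]
  · rw [if_pos hp, mul_sum]
    refine sum_congr rfl fun γ _ => ?_
    by_cases ha : γ = p.1
    · subst ha
      rw [if_neg (by simp), mul_zero]
      refine sum_eq_zero fun f _ => ?_
      rw [wt_snoc q x g (l + 2), wt_diag q x g l h1, zero_mul]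
    · by_cases hb : γ = p.2
      · rw [if_neg (by simp [hb]), mul_zero]
        refine sum_eq_zero fun f _ => ?_
        rw [wt_snoc q x g (l + 2), Fin.prod_univ_castSucc, Fin.prod_univ_castSucc]
        simp [h3, ew, hb]
      · rw [if_pos ⟨ha, hb⟩, mul_sum, mul_sum]
        refine sum_congr rfl fun f _ => ?_
        rw [wt_snoc q x g (l + 2), Fin.prod_univ_castSucc, Fin.prod_univ_castSucc]
        simp [fun a : Fin l => (h a a.is_lt).not_ge, h3, h2, ew, hp, hb]
        ring

theorem s2_K (l : ℕ) (h1 : l + 3 ≤ g l) (h2 : l + 3 ≤ g (l + 1)) (h3 : l + 3 ≤ g (l + 2))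
    (h : ∀ a < l, g a < l + 2) : s2 q x g (l + 2) = opK q x (s2 q x g l) := by
  funext p
  simp only [opK, LinearMap.coe_mk, AddHom.coe_mk]
  simp only [s2, sum_snoc]
  by_cases hp : p.1 = p.2
  · rw [if_neg (by simpa using hp), ← hp]; simp [wt_diag q x g (l + 2) h3]
  · rw [if_pos hp, sum_comm, mul_sum]
    refine sum_congr rfl fun a _ => ?_
    rw [mul_sum]
    refine sum_congr rfl fun u _ => ?_
    rw [mul_sum, mul_sum]
    refine sum_congr rfl fun f _ => ?_
    have ha : ∀ b : Fin l, ¬ l + 2 ≤ g b := fun b => (h b b.is_lt).not_ge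
    have hb : ∀ b : Fin l, ¬ l + 3 ≤ g b := fun b => by have := h b b.is_lt; omega
    by_cases hau : a = u
    · subst hau
      rw [wt_snoc q x g (l + 3), wt_snoc q x g (l + 2), wt_diag q x g l (by omega)]
      simp [kk]
    · rw [wt_snoc q x g (l + 3), wt_snoc q x g (l + 2)]
      simp only [Fin.prod_univ_castSucc, Fin.snoc_castSucc, Fin.snoc_last, Fin.val_castSucc,
        Fin.val_last]
      simp [ha, hb, h1, h2, h3, show l + 2 ≤ g l by omega, show l + 2 ≤ g (l + 1) by omega,
        ew, kk, hp, hau]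
      split_ifs <;> first | ring1 | (exfalso; simp_all)

end Rec

theorem zs_pos (g : ℕ → ℕ) (hg : Monotone g) (hg3 : ∀ a, g a ≤ a + 3)
    (hsep : ∀ a, g a = a + 3 → g (a + 1) ≠ a + 4) (k : ℕ) :
    (fun N => zs (qR N) (xR N) g k) ∈ Pos0 k ∧
      (fun N => s1 (qR N) (xR N) g k) ∈ Pos1 (k + 1) ∧
      (k + 1 ≤ g k → (fun N => s2 (qR N) (xR N) g k) ∈ Pos2 (k + 2)) := by
  induction k using Nat.strong_induction_on with
  | h k ih =>
  rcases k with _ | k
  · have hz : (fun N => zs (qR N) (xR N) g 0) ∈ Pos0 0 := by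
      simp only [zs_zero]; exact AddSubmonoid.subset_closure Sc.one
    have h1 : (fun N => s1 (qR N) (xR N) g 0) ∈ Pos1 (0 + 1) := by
      simp only [s1_isolated _ _ g 0 (fun a ha => absurd ha (Nat.not_lt_zero a))]
      exact pos0_x hz
    refine ⟨hz, h1, fun he => ?_⟩
    simp only [s2_U _ _ g 0 he (fun a ha => absurd ha (Nat.not_lt_zero a))]
    exact U_pos h1
  obtain ⟨-, i1, i2⟩ := ih k (Nat.lt_succ_self k)
  have hz : (fun N => zs (qR N) (xR N) g (k + 1)) ∈ Pos0 (k + 1) := by
    simp only [zs_succ]; exact tot_pos i1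
  have h1 : (fun N => s1 (qR N) (xR N) g (k + 1)) ∈ Pos1 (k + 1 + 1) := by
    by_cases he : k + 1 ≤ g k
    · simp only [s1_edge _ _ g k he]
      exact D_pos (i2 he)
    · simp only [s1_isolated _ _ g (k + 1)
        (fun a ha => lt_of_le_of_lt (hg (Nat.le_of_lt_succ ha)) (not_le.1 he))]
      exact pos0_x hz
  refine ⟨hz, h1, fun he => ?_⟩
  by_cases h3 : k + 2 ≤ g k
  · by_cases h4 : ∀ a < k, g a < k + 2
    · simp only [s2_DU _ _ g k (by omega) he h3 h4]
      exact DU_pos (i2 (by omega))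
    · -- the vertex `k - 1` has a window of four
      simp only [not_forall, not_lt] at h4
      obtain ⟨a, ha, hga⟩ := h4
      obtain ⟨l, rfl⟩ : ∃ l, k = l + 1 := ⟨k - 1, by omega⟩
      have hal : a = l := by have := hg3 a; omega
      subst hal
      have hlow : ∀ b < a, g b < a + 2 := fun b hb => by
        have h5 := hg3 b
        by_contra h6
        obtain rfl : a = b + 1 := by omega
        exact hsep b (by have := hg (Nat.le_succ b); omega) (by have := hg3 (b + 1); omega)
      have hl : a + 1 ≤ g a := by omega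
      simp only [s2_K _ _ g a (by omega) (by have := hg (Nat.le_succ a); omega) he hlow]
      exact K_pos ((ih a (by omega)).2.2 hl)
  · simp only [s2_U _ _ g (k + 1) he
      (fun a ha => lt_of_le_of_lt (hg (Nat.le_of_lt_succ ha)) (not_le.1 h3))]
    exact U_pos h1

theorem es_eq_esymm (N k : ℕ) : es (xR N) k = MvPolynomial.esymm (Fin N) (Polynomial ℤ) k := rfl

theorem prod_es_filter (N : ℕ) (l : Multiset ℕ) :
    (l.map (es (xR N))).prod
      = ((l.filter (· ≠ 0)).map (MvPolynomial.esymm (Fin N) (Polynomial ℤ))).prod := by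
  induction l using Multiset.induction with
  | empty => simp
  | cons a l ih =>
    rcases Nat.eq_zero_or_pos a with rfl | ha
    · simp [ih, es_zero]
    · simp [ih, ha.ne', es_eq_esymm]

/-- Every element of the cone is a natural combination of the products of elementary functions. -/
theorem pos0_expand {n : ℕ} {z : ∀ N, Rg N} (hz : z ∈ Pos0 n) :
    ∃ c : n.Partition → Polynomial ℕ, ∀ N : ℕ, z N = ∑ μ : n.Partition,
      MvPolynomial.C ((c μ).map (Nat.castRingHom ℤ))
        * MvPolynomial.esymmPart (Fin N) (Polynomial ℤ) μ := by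
  induction hz using AddSubmonoid.closure_induction with
  | mem s hs =>
    obtain ⟨c, l, hl, rfl⟩ := hs
    refine ⟨fun μ => if μ = Nat.Partition.ofSums n l hl then c else 0, fun N => ?_⟩
    rw [sum_eq_single (Nat.Partition.ofSums n l hl) (fun μ _ hμ => by simp [hμ]) (by simp)]
    simp [natC, prod_es_filter, MvPolynomial.esymmPart, Nat.Partition.ofSums]
  | zero => exact ⟨0, fun N => by simp⟩
  | add s t _ _ hs ht =>
    obtain ⟨c, hc⟩ := hs
    obtain ⟨d, hd⟩ := ht
    exact ⟨c + d, fun N => by simp [hc, hd, add_mul, sum_add_distrib]⟩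

theorem wt_eq (N n : ℕ) (g : ℕ → ℕ) (f : Fin n → Fin N) :
    wt (qR N) (xR N) g n f
      = if (∀ a b : Fin n, a < b → (b : ℕ) ≤ g a → f a ≠ f b) then
          MvPolynomial.C ((Polynomial.X : Polynomial ℤ) ^
            #{p : Fin n × Fin n | p.1 < p.2 ∧ (p.2 : ℕ) ≤ g p.1 ∧ f p.1 < f p.2})
            * ∏ a, MvPolynomial.X (f a)
        else 0 := by
  rw [wt, prod_mul_distrib, mul_comm]
  have hprod : (∏ b : Fin n, ∏ a : Fin n,
      if a < b ∧ (b : ℕ) ≤ g a then ew (qR N) (f a) (f b) else 1)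
      = ∏ p ∈ ({p : Fin n × Fin n | p.1 < p.2 ∧ (p.2 : ℕ) ≤ g p.1} : Finset _),
          ew (qR N) (f p.1) (f p.2) := by
    rw [prod_comm, prod_filter, Fintype.prod_prod_type]
  rw [hprod]
  by_cases h : ∀ a b : Fin n, a < b → (b : ℕ) ≤ g a → f a ≠ f b
  · rw [if_pos h, map_pow]
    congr 1
    calc _ = ∏ p ∈ ({p : Fin n × Fin n | p.1 < p.2 ∧ (p.2 : ℕ) ≤ g p.1} : Finset _),
          (if f p.1 < f p.2 then qR N else 1) := by
          refine prod_congr rfl fun p hp => ?_
          simp only [mem_filter, mem_univ, true_and] at hp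
          simp [ew, qi, h _ _ hp.1 hp.2]
      _ = _ := by
          rw [← prod_filter, filter_filter, prod_const]
          simp [qR, and_assoc]
  · rw [if_neg h]
    simp only [not_forall, not_not] at h
    obtain ⟨a, b, hab, hg, he⟩ := h
    rw [prod_eq_zero (i := (a, b)) (by simp [hab, hg]) (by simp [ew, he]), zero_mul]

/-- Window theorem. -/
theorem window_epositive (n : ℕ) (h : Fin n → Fin n) (hm : Monotone h)
    (h3 : ∀ a : Fin n, (h a : ℕ) ≤ a + 3)
    (hs : ∀ a b : Fin n, (b : ℕ) = a + 1 → (h a : ℕ) = a + 3 → (h b : ℕ) ≠ b + 3) :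
    ∃ c : n.Partition → Polynomial ℕ, ∀ N : ℕ,
      ∑ f : Fin n → Fin N with ∀ a b : Fin n, a < b → b ≤ h a → f a ≠ f b,
        MvPolynomial.C ((Polynomial.X : Polynomial ℤ) ^
            #{p : Fin n × Fin n | p.1 < p.2 ∧ p.2 ≤ h p.1 ∧ f p.1 < f p.2})
          * ∏ a, MvPolynomial.X (f a)
      = ∑ μ : n.Partition, MvPolynomial.C ((c μ).map (Nat.castRingHom ℤ))
          * MvPolynomial.esymmPart (Fin N) (Polynomial ℤ) μ := by
  set g : ℕ → ℕ := fun a => if ha : a < n then (h ⟨a, ha⟩ : ℕ) else a + 2 with hgdef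
  have hgv : ∀ a : Fin n, g a = h a := fun a => by simp [hgdef]
  have hg : Monotone g := by
    intro a b hab
    simp only [hgdef]
    split_ifs with ha hb
    · exact hm (show (⟨a, ha⟩ : Fin n) ≤ ⟨b, hb⟩ from hab)
    · have := (h ⟨a, ha⟩).is_lt; omega
    · omega
    · omega
  have hg3 : ∀ a, g a ≤ a + 3 := by
    intro a
    simp only [hgdef]
    split_ifs with ha
    · exact h3 ⟨a, ha⟩
    · omega
  have hsep : ∀ a, g a = a + 3 → g (a + 1) ≠ a + 4 := by
    intro a
    simp only [hgdef]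
    split_ifs with ha hb
    · exact hs ⟨a, ha⟩ ⟨a + 1, hb⟩ rfl
    all_goals omega
  obtain ⟨c, hc⟩ := pos0_expand (zs_pos g hg hg3 hsep n).1
  refine ⟨c, fun N => ?_⟩
  rw [← hc N, zs]
  simp only [wt_eq, hgv, Fin.val_fin_le]
  rw [sum_filter]

end Vale.Agent.P066.Window
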