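import Vale.Agent.P066.Window.Gens

/-!
Homogeneous positive cones, uniform in the number of colours.
-/

namespace Vale.Agent.P066.Window

open Finset

/-- Coefficient ring with `N` colours. -/
abbrev Rg (N : ℕ) : Type := MvPolynomial (Fin N) (Polynomial ℤ)

/-- The parameter. -/
noncomputable def qR (N : ℕ) : Rg N := MvPolynomial.C Polynomial.X

/-- The colour variables. -/
noncomputable def xR (N : ℕ) : Fin N → Rg N := MvPolynomial.X

/-- A polynomial with natural coefficients as a scalar. -/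
noncomputable def natC (c : Polynomial ℕ) (N : ℕ) : Rg N :=
  MvPolynomial.C (c.map (Nat.castRingHom ℤ))

theorem gen_qR (N : ℕ) : Gen (qR N) := by
  constructor
  · simp [qR, Polynomial.X_ne_zero]
  · intro h
    have h' : (Polynomial.X : Polynomial ℤ) = 1 :=
      MvPolynomial.C_injective (Fin N) (Polynomial ℤ) (h.trans MvPolynomial.C_1.symm)
    exact Polynomial.X_ne_C 1 (h'.trans Polynomial.C_1.symm)

theorem natC_mul (c d : Polynomial ℕ) (N : ℕ) : natC (c * d) N = natC c N * natC d N := by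
  simp [natC]

theorem natC_q_pow (i : ℕ) (N : ℕ) : natC (Polynomial.X ^ i) N = qR N ^ i := by
  simp [natC, qR]

theorem natC_gq (k : ℕ) (N : ℕ) :
    natC (∑ j ∈ range k, Polynomial.X ^ j) N = gq (qR N) k := by
  simp [natC, qR, gq, Polynomial.map_sum]

/-- Atoms of degree `n`: a natural polynomial times a product of elementary functions. -/
def Sc (n : ℕ) : Set (∀ N, Rg N) :=
  {s | ∃ (c : Polynomial ℕ) (l : Multiset ℕ), l.sum = n ∧
    s = fun N => natC c N * (l.map (es (xR N))).prod}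

theorem Sc.cast {n n' : ℕ} {s : ∀ N, Rg N} (h : s ∈ Sc n) (e : n = n') : s ∈ Sc n' := e ▸ h

theorem Sc.const (c : Polynomial ℕ) : (fun N => natC c N) ∈ Sc 0 :=
  ⟨c, 0, rfl, by simp⟩

theorem Sc.qpow (i : ℕ) : (fun N => qR N ^ i) ∈ Sc 0 := by
  simpa only [← natC_q_pow] using Sc.const (Polynomial.X ^ i)

theorem Sc.q : (fun N => qR N) ∈ Sc 0 := by simpa using Sc.qpow 1

theorem Sc.gq (k : ℕ) : (fun N => gq (qR N) k) ∈ Sc 0 := by
  simpa only [← natC_gq] using Sc.const (∑ j ∈ range k, Polynomial.X ^ j)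

theorem Sc.es (k : ℕ) : (fun N => es (xR N) k) ∈ Sc k :=
  ⟨1, {k}, by simp, by simp [natC]⟩

theorem Sc.one : (fun _ => 1) ∈ Sc 0 := by simpa [natC] using Sc.const 1

theorem Sc.mul {a b : ℕ} {s t : ∀ N, Rg N} (hs : s ∈ Sc a) (ht : t ∈ Sc b) :
    (fun N => s N * t N) ∈ Sc (a + b) := by
  obtain ⟨c, l, hl, rfl⟩ := hs
  obtain ⟨d, k, hk, rfl⟩ := ht
  refine ⟨c * d, l + k, by simp [hl, hk], funext fun N => ?_⟩
  simp [natC_mul]; ring

/-- Atoms with one open vertex. -/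
def Atom1 (n : ℕ) : Set (∀ N, Fin N → Rg N) :=
  {g | ∃ k a s, s ∈ Sc k ∧ k + a + 1 = n ∧ g = fun N => s N • bv (qR N) (xR N) a}

/-- The generators with two open vertices. -/
inductive IsGen : ℕ → (∀ N, Fin N × Fin N → Rg N) → Prop
  | pendant (a : ℕ) : IsGen (a + 2) fun N => uv (qR N) (xR N) a
  | clique (a : ℕ) : IsGen (a + 2) fun N => mv (qR N) (xR N) a
  | even (m r : ℕ) : IsGen (2 * m + 4 + r) fun N => evenGen (qR N) (xR N) m r
  | odd (m r : ℕ) : IsGen (2 * m + 5 + r) fun N => oddGen (qR N) (xR N) m r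

/-- Atoms with two open vertices. -/
def Atom2 (n : ℕ) : Set (∀ N, Fin N × Fin N → Rg N) :=
  {g | ∃ k a s f, s ∈ Sc k ∧ IsGen a f ∧ k + a = n ∧ g = fun N => s N • f N}

/-- The positive cone of scalars. -/
noncomputable def Pos0 (n : ℕ) : AddSubmonoid (∀ N, Rg N) := AddSubmonoid.closure (Sc n)

/-- The positive cone with one open vertex. -/
noncomputable def Pos1 (n : ℕ) : AddSubmonoid (∀ N, Fin N → Rg N) := AddSubmonoid.closure (Atom1 n)

/-- The positive cone with two open vertices. -/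
noncomputable def Pos2 (n : ℕ) : AddSubmonoid (∀ N, Fin N × Fin N → Rg N) := AddSubmonoid.closure (Atom2 n)

theorem map_closure_pos {A B : ℕ → Type} [∀ N, AddCommGroup (A N)] [∀ N, AddCommGroup (B N)]
    [∀ N, Module (Rg N) (A N)] [∀ N, Module (Rg N) (B N)]
    (L : ∀ N, A N →ₗ[Rg N] B N) {S : Set (∀ N, A N)} {P : AddSubmonoid (∀ N, B N)}
    (h : ∀ f ∈ S, (fun N => L N (f N)) ∈ P) {g : ∀ N, A N}
    (hg : g ∈ AddSubmonoid.closure S) : (fun N => L N (g N)) ∈ P := by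
  induction hg using AddSubmonoid.closure_induction with
  | mem f hf => exact h f hf
  | zero =>
    have e : (fun N => L N ((0 : ∀ N, A N) N)) = 0 := funext fun N => map_zero (L N)
    rw [e]; exact P.zero_mem
  | add f f' _ _ ih ih' =>
    have e : (fun N => L N ((f + f') N)) = (fun N => L N (f N)) + fun N => L N (f' N) :=
      funext fun N => map_add (L N) (f N) (f' N)
    rw [e]; exact P.add_mem ih ih'

theorem pos1_atom {n k a : ℕ} {s : ∀ N, Rg N} (hs : s ∈ Sc k) (h : k + a + 1 = n) :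
    (fun N => s N • bv (qR N) (xR N) a) ∈ Pos1 n :=
  AddSubmonoid.subset_closure ⟨k, a, s, hs, h, rfl⟩

theorem pos2_atom {n k a : ℕ} {s : ∀ N, Rg N} {f : ∀ N, Fin N × Fin N → Rg N} (hs : s ∈ Sc k)
    (hf : IsGen a f) (h : k + a = n) : (fun N => s N • f N) ∈ Pos2 n :=
  AddSubmonoid.subset_closure ⟨k, a, s, f, hs, hf, h, rfl⟩

theorem smul_closure_pos {A : ℕ → Type} [∀ N, AddCommGroup (A N)] [∀ N, Module (Rg N) (A N)]
    (s : ∀ N, Rg N) {S : Set (∀ N, A N)} {P : AddSubmonoid (∀ N, A N)}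
    (h : ∀ f ∈ S, (fun N => s N • f N) ∈ P) {g : ∀ N, A N}
    (hg : g ∈ AddSubmonoid.closure S) : (fun N => s N • g N) ∈ P :=
  map_closure_pos (fun N => s N • LinearMap.id) h hg

theorem pos1_smul {k n n' : ℕ} {s : ∀ N, Rg N} {g : ∀ N, Fin N → Rg N} (hs : s ∈ Sc k)
    (hg : g ∈ Pos1 n) (e : k + n = n') : (fun N => s N • g N) ∈ Pos1 n' := by
  refine smul_closure_pos s ?_ hg
  rintro f ⟨k', a, t, ht, hn, rfl⟩
  simpa only [smul_smul] using pos1_atom (Sc.mul hs ht) (n := n') (a := a) (by omega)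

theorem pos2_smul {k n n' : ℕ} {s : ∀ N, Rg N} {g : ∀ N, Fin N × Fin N → Rg N} (hs : s ∈ Sc k)
    (hg : g ∈ Pos2 n) (e : k + n = n') : (fun N => s N • g N) ∈ Pos2 n' := by
  refine smul_closure_pos s ?_ hg
  rintro f ⟨k', a, t, f', ht, hf, hn, rfl⟩
  simpa only [smul_smul] using pos2_atom (Sc.mul hs ht) hf (n := n') (by omega)

theorem pos1_sum {n : ℕ} {ι : Type*} (S : Finset ι) (g : ι → ∀ N, Fin N → Rg N)
    (h : ∀ i ∈ S, g i ∈ Pos1 n) : (fun N => ∑ i ∈ S, g i N) ∈ Pos1 n := by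
  have := (Pos1 n).sum_mem h
  have e : (fun N => ∑ i ∈ S, g i N) = ∑ i ∈ S, g i := funext fun N => (Finset.sum_apply N S g).symm
  rw [e]; exact this

theorem pos1_add {n : ℕ} {f g : ∀ N, Fin N → Rg N} (hf : f ∈ Pos1 n) (hg : g ∈ Pos1 n) :
    (fun N => f N + g N) ∈ Pos1 n := (Pos1 n).add_mem hf hg

theorem pos2_add {n : ℕ} {f g : ∀ N, Fin N × Fin N → Rg N} (hf : f ∈ Pos2 n) (hg : g ∈ Pos2 n) :
    (fun N => f N + g N) ∈ Pos2 n := (Pos2 n).add_mem hf hg

theorem pos2_gen {n : ℕ} {f : ∀ N, Fin N × Fin N → Rg N} (hf : IsGen n f) : f ∈ Pos2 n := by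
  simpa using pos2_atom Sc.one hf (zero_add n)

theorem tot_pos {n : ℕ} {g : ∀ N, Fin N → Rg N} (hg : g ∈ Pos1 n) :
    (fun N => tot (g N)) ∈ Pos0 n := by
  refine map_closure_pos (fun N => tot) ?_ hg
  rintro f ⟨k, a, s, hs, hn, rfl⟩
  have e : (fun N => tot (s N • bv (qR N) (xR N) a))
      = fun N => s N * (gq (qR N) (a + 1) * es (xR N) (a + 1)) := by
    funext N; rw [map_smul, tot_bv _ _ (gen_qR N).ne1, smul_eq_mul]
  rw [e]
  exact AddSubmonoid.subset_closure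
    (Sc.cast (Sc.mul hs (Sc.mul (Sc.gq (a + 1)) (Sc.es (a + 1)))) (by omega))

theorem pos0_x {n : ℕ} {z : ∀ N, Rg N} (hz : z ∈ Pos0 n) :
    (fun N => z N • xR N) ∈ Pos1 (n + 1) := by
  refine map_closure_pos (A := Rg) (fun N => LinearMap.smulRight LinearMap.id (xR N)) ?_ hz
  intro s hs
  simpa [bv] using pos1_atom hs (n := n + 1) (a := 0) (by omega)

theorem U_pos {n : ℕ} {g : ∀ N, Fin N → Rg N} (hg : g ∈ Pos1 n) :
    (fun N => opU (qR N) (xR N) (g N)) ∈ Pos2 (n + 1) := by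
  refine map_closure_pos (fun N => opU (qR N) (xR N)) ?_ hg
  rintro f ⟨k, a, s, hs, hn, rfl⟩
  simp only [map_smul]
  exact pos2_atom hs (.pendant a) (by omega)

theorem dEven_pos (m r : ℕ) :
    (fun N => dEven (qR N) (xR N) m r) ∈ Pos1 (2 * m + 4 + r) := by
  refine pos1_add (pos1_sum _ _ fun i hi => ?_) (pos1_sum _ _ fun j hj => ?_)
  · rw [mem_range] at hi
    exact pos1_atom (Sc.mul (Sc.mul (Sc.qpow i) (Sc.gq _)) (Sc.es i)) (by omega)
  · rw [mem_range] at hj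
    exact pos1_atom (Sc.mul (Sc.mul (Sc.qpow _) (Sc.gq _)) (Sc.es _)) (by omega)

theorem restE_pos (m r : ℕ) :
    (fun N => restE (qR N) (xR N) m r) ∈ Pos1 (2 * m + 4 + r) := by
  refine pos1_add (pos1_sum _ _ fun i hi => ?_) (pos1_sum _ _ fun j hj => ?_)
  · rw [mem_range] at hi
    exact pos1_atom (Sc.mul (Sc.mul (Sc.qpow _) (Sc.gq _)) (Sc.es i)) (by omega)
  · rw [mem_range] at hj
    exact pos1_atom (Sc.mul (Sc.mul (Sc.qpow _) (Sc.gq _)) (Sc.es _)) (by omega)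

theorem dOdd_pos (m r : ℕ) :
    (fun N => dOdd (qR N) (xR N) m r) ∈ Pos1 (2 * m + 5 + r) := by
  refine pos1_add (pos1_add (pos1_sum _ _ fun i hi => ?_) (pos1_sum _ _ fun j hj => ?_)) ?_
  · rw [mem_range] at hi
    exact pos1_atom (Sc.mul (Sc.mul (Sc.qpow i) (Sc.gq _)) (Sc.es i)) (by omega)
  · rw [mem_range] at hj
    exact pos1_atom (Sc.mul (Sc.mul (Sc.qpow _) (Sc.gq _)) (Sc.es _)) (by omega)
  · exact pos1_atom (a := 0) (Sc.mul (Sc.mul (Sc.qpow _) (Sc.gq _)) (Sc.es _)) (by omega)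

theorem restO_pos (m r : ℕ) :
    (fun N => restO (qR N) (xR N) m r) ∈ Pos1 (2 * m + 5 + r) := by
  refine pos1_add (pos1_add (pos1_sum _ _ fun i hi => ?_) (pos1_sum _ _ fun j hj => ?_)) ?_
  · rw [mem_range] at hi
    exact pos1_atom (Sc.mul (Sc.mul (Sc.qpow _) (Sc.gq _)) (Sc.es i)) (by omega)
  · rw [mem_range] at hj
    exact pos1_atom (Sc.mul (Sc.mul (Sc.qpow _) (Sc.gq _)) (Sc.es _)) (by omega)
  · exact pos1_atom (a := 0) (Sc.mul (Sc.mul (Sc.qpow _) (Sc.gq _)) (Sc.es _)) (by omega)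

theorem D_gen {n : ℕ} {f : ∀ N, Fin N × Fin N → Rg N} (hf : IsGen n f) :
    (fun N => opD (f N)) ∈ Pos1 n := by
  cases hf with
  | pendant a =>
    simp only [D_uv _ (gen_qR _)]
    refine pos1_add ?_ (pos1_atom (a := 0) (Sc.mul (Sc.mul Sc.q (Sc.gq a)) (Sc.es (a + 1))) (by omega))
    simpa using pos1_atom Sc.one (n := a + 2) (a := a + 1) (by omega)
  | clique a =>
    simp only [D_mv _ (gen_qR _)]
    exact pos1_atom (Sc.gq (a + 1)) (by omega)
  | even m r => simpa only [D_evenGen _ (gen_qR _)] using dEven_pos m r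
  | odd m r => simpa only [D_oddGen _ (gen_qR _)] using dOdd_pos m r

theorem D_pos {n : ℕ} {g : ∀ N, Fin N × Fin N → Rg N} (hg : g ∈ Pos2 n) :
    (fun N => opD (g N)) ∈ Pos1 n := by
  refine map_closure_pos (fun N => opD) ?_ hg
  rintro f ⟨k, a, s, f', hs, hf, hn, rfl⟩
  simp only [map_smul]
  exact pos1_smul hs (D_gen hf) hn

theorem DU_gen {n : ℕ} {f : ∀ N, Fin N × Fin N → Rg N} (hf : IsGen n f) :
    (fun N => opDU (qR N) (xR N) (f N)) ∈ Pos2 (n + 1) := by
  have hm : ∀ a, (fun N => opDU (qR N) (xR N) (mv (qR N) (xR N) a)) ∈ Pos2 (a + 2 + 1) := by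
    intro a
    simp only [DU_mv _ (gen_qR _)]
    exact pos2_add (pos2_gen (.clique (a + 1)))
      (pos2_atom (Sc.mul Sc.q (Sc.gq a)) (.pendant (a + 1)) (by omega))
  cases hf with
  | pendant a =>
    cases a with
    | zero => simpa only [uv_zero, mv_zero] using hm 0
    | succ a =>
      simp only [DU_uv _ (gen_qR _), ← evenGen_zero _ (gen_qR _)]
      refine pos2_add ?_ ?_
      · have h := pos2_gen (IsGen.even 0 a)
        rwa [show a + 1 + 2 + 1 = 2 * 0 + 4 + a by omega]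
      · simp only [← uv_zero]
        exact pos2_atom (Sc.mul (Sc.mul (Sc.mul Sc.q Sc.q) (Sc.gq a)) (Sc.es (a + 2))) (.pendant 0)
          (by omega)
  | clique a => exact hm a
  | even m r =>
    simp only [DU_evenGen _ (gen_qR _)]
    refine pos2_add ?_ (U_pos (restE_pos m r))
    have h := pos2_gen (IsGen.odd m r)
    rwa [show 2 * m + 4 + r + 1 = 2 * m + 5 + r by omega]
  | odd m r =>
    simp only [DU_oddGen _ (gen_qR _)]
    refine pos2_add ?_ (U_pos (restO_pos m r))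
    have h := pos2_gen (IsGen.even (m + 1) r)
    rwa [show 2 * m + 5 + r + 1 = 2 * (m + 1) + 4 + r by omega]

theorem DU_pos {n : ℕ} {g : ∀ N, Fin N × Fin N → Rg N} (hg : g ∈ Pos2 n) :
    (fun N => opDU (qR N) (xR N) (g N)) ∈ Pos2 (n + 1) := by
  refine map_closure_pos (fun N => opDU (qR N) (xR N)) ?_ hg
  rintro f ⟨k, a, s, f', hs, hf, hn, rfl⟩
  simp only [map_smul]
  exact pos2_smul hs (DU_gen hf) (by omega)

end Vale.Agent.P066.Window
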