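import Vale.Agent.P066.Window.Rel2

/-!
The one-vertex basis states and their totals.
-/

namespace Vale.Agent.P066.Window

open Finset Polynomial

variable {N : ℕ} {R : Type*} [CommRing R] (q : R) (x : Fin N → R)

/-- Elementary symmetric sum. -/
def es (r : ℕ) : R := ∑ t ∈ powersetCard r (univ : Finset (Fin N)), ∏ i ∈ t, x i

/-- The `q`-integer. -/
def gq (n : ℕ) : R := ∑ i ∈ range n, q ^ i

/-- The basis states with one open vertex. -/
def bv : ℕ → (Fin N → R)
  | 0 => x
  | r + 1 => es x (r + 1) • x - opY q x (bv r)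

theorem gq_zero : gq q 0 = 0 := rfl

theorem gq_one : gq q 1 = 1 := by simp [gq]

theorem gq_succ (n : ℕ) : gq q (n + 1) = 1 + q * gq q n := by
  simp [gq, sum_range_succ', mul_sum, pow_succ']
  ring

theorem gq_add (m n : ℕ) : gq q (m + n) = gq q m + q ^ m * gq q n := by
  simp [gq, sum_range_add, mul_sum, pow_add]

theorem es_zero : es x 0 = 1 := by simp [es]

/-- The mixed product: colours below `k` are weighted by `q`. -/
noncomputable def genG (k : ℕ) : R[X] :=
  ∏ i : Fin N, (1 + C ((if (i : ℕ) < k then q else 1) * x i) * X)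

/-- The mixed product without the colour `k`. -/
noncomputable def genH (k : Fin N) : R[X] :=
  ∏ i ∈ univ.erase k, (1 + C ((if i < k then q else 1) * x i) * X)

theorem genG_eq (k : Fin N) : genG q x k = (1 + C (x k) * X) * genH q x k := by
  rw [genG, genH, ← mul_prod_erase univ _ (mem_univ k)]
  simp

theorem genG_succ_eq (k : Fin N) :
    genG q x ((k : ℕ) + 1) = (1 + C (q * x k) * X) * genH q x k := by
  rw [genG, genH, ← mul_prod_erase univ _ (mem_univ k)]
  simp only [lt_add_one, if_true]
  congr 1
  refine prod_congr rfl fun i hi => ?_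
  have hne := (mem_erase.1 hi).1
  have : (i : ℕ) < (k : ℕ) + 1 ↔ i < k := by omega
  simp only [this]

theorem genG_sum (m : ℕ) (hm : m ≤ N) : genG q x m =
    genG q x 0 + C (q - 1) * X * ∑ k : Fin N, if (k : ℕ) < m then C (x k) * genH q x k else 0 := by
  induction m with
  | zero => simp
  | succ m ih =>
    have hk : m < N := hm
    have hs : (∑ k : Fin N, if (k : ℕ) < m + 1 then C (x k) * genH q x k else 0)
        = (∑ k : Fin N, if (k : ℕ) < m then C (x k) * genH q x k else 0)
          + C (x ⟨m, hk⟩) * genH q x ⟨m, hk⟩ := by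
      have h1 : C (x ⟨m, hk⟩) * genH q x ⟨m, hk⟩
          = ∑ k : Fin N, if k = (⟨m, hk⟩ : Fin N) then C (x k) * genH q x k else 0 := by simp
      rw [h1, ← sum_add_distrib]
      refine sum_congr rfl fun k _ => ?_
      simp only [Fin.ext_iff]
      split_ifs <;> first | omega | simp
    have e1 := genG_eq q x ⟨m, hk⟩
    have e2 := genG_succ_eq q x ⟨m, hk⟩
    simp only at e1 e2
    rw [hs, mul_add, ← add_assoc, ← ih (by omega), e1, e2]
    simp only [map_sub, map_mul, map_one]
    ring

theorem coeff_prod_linear (s : Finset (Fin N)) (y : Fin N → R) (r : ℕ) :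
    (∏ i ∈ s, (1 + C (y i) * X)).coeff r = ∑ t ∈ powersetCard r s, ∏ i ∈ t, y i := by
  rw [prod_one_add, finset_sum_coeff, powersetCard_eq_filter, sum_filter]
  refine sum_congr rfl fun t _ => ?_
  rw [prod_mul_distrib, prod_const, ← map_prod, coeff_C_mul, coeff_X_pow]
  by_cases h : t.card = r
  · simp [h]
  · simp [h, Ne.symm h]

theorem genG_zero_coeff (r : ℕ) : (genG q x 0).coeff r = es x r := by
  simp only [genG, Nat.not_lt_zero, if_false, one_mul]
  exact coeff_prod_linear univ x r

theorem genG_full_coeff (r : ℕ) : (genG q x N).coeff r = q ^ r * es x r := by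
  simp only [genG, Fin.is_lt, if_true]
  rw [coeff_prod_linear univ (fun i => q * x i) r, es, mul_sum]
  refine sum_congr rfl fun t ht => ?_
  rw [prod_mul_distrib, prod_const, (mem_powersetCard.1 ht).2]

theorem genH_coeff_zero (k : Fin N) : (genH q x k).coeff 0 = 1 := by
  rw [genH, coeff_prod_linear]; simp

theorem genH_coeff_succ (k : Fin N) (r : ℕ) : (genH q x k).coeff (r + 1)
    = es x (r + 1) + (q - 1) * (∑ i : Fin N, if i < k then x i * (genH q x i).coeff r else 0)
      - x k * (genH q x k).coeff r := by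
  have h := genG_sum q x k k.is_lt.le
  rw [genG_eq] at h
  have h' := congrArg (fun p : R[X] => p.coeff (r + 1)) h
  simp only [add_mul, one_mul, coeff_add, mul_assoc, coeff_C_mul, coeff_X_mul,
    genG_zero_coeff, finset_sum_coeff, apply_ite (fun p : R[X] => p.coeff r), coeff_zero] at h'
  simp only [Fin.lt_def]
  linear_combination h'

theorem bv_apply : ∀ r (k : Fin N), bv q x r k = x k * (genH q x k).coeff r
  | 0, k => by simp [bv, genH_coeff_zero]
  | r + 1, k => by
    have ih := bv_apply r
    simp only [bv, Pi.sub_apply, Pi.smul_apply, smul_eq_mul, opY, LinearMap.coe_mk, AddHom.coe_mk,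
      ih, genH_coeff_succ]
    ring

theorem tot_bv [IsDomain R] (hq1 : q ≠ 1) (r : ℕ) :
    tot (bv q x r) = gq q (r + 1) * es x (r + 1) := by
  apply mul_left_cancel₀ (sub_ne_zero.2 hq1)
  have h := congrArg (fun p : R[X] => p.coeff (r + 1)) (genG_sum q x N le_rfl)
  simp only [genG_full_coeff, Fin.is_lt, if_true, coeff_add, mul_assoc, coeff_C_mul, coeff_X_mul,
    genG_zero_coeff, finset_sum_coeff] at h
  have hg : gq q (r + 1) * (q - 1) = q ^ (r + 1) - 1 := geom_sum_mul q (r + 1)
  simp only [tot, LinearMap.coe_mk, AddHom.coe_mk, bv_apply]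
  linear_combination -h - es x (r + 1) * hg

end Vale.Agent.P066.Window
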