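import Vale.Agent.P066.Window.Gens

/-!
Two new vertices after a window of four: the transfer map and its reduction to one variable.
-/

namespace Vale.Agent.P066.Window

open Finset

variable {N : ℕ} {R : Type*} [CommRing R] (q : R) (x : Fin N → R)

/-- Kernel of the two closing vertices. -/
def kk (c d a u : Fin N) : R :=
  if (a ≠ c ∧ a ≠ d) ∧ (u ≠ c ∧ u ≠ d) ∧ a ≠ u then qi q a c * qi q u c * qi q a d * qi q u d
  else 0

/-- Two new vertices, both adjacent to the open ones and to each other; the open ones close. -/
def opK : Module.End R (Fin N × Fin N → R) where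
  toFun F p := if p.1 ≠ p.2 then qi q p.1 p.2 * x p.1 * x p.2 *
    (∑ a, ∑ u, kk q p.1 p.2 a u * F (a, u)) else 0
  map_add' F G := by
    funext p
    simp only [Pi.add_apply, mul_add, sum_add_distrib]
    split_ifs <;> simp
  map_smul' c F := by
    funext p
    simp only [Pi.smul_apply, smul_eq_mul, RingHom.id_apply, mul_left_comm _ c, ← mul_sum]
    split_ifs <;> simp

/-- `U D - [2] W`. -/
def opH : Module.End R (Fin N × Fin N → R) :=
  opU q x ∘ₗ opD - (1 + q) • opW q x

theorem sum_pairs (G : Fin N → Fin N → R) (h : ∀ a, G a a = 0) :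
    (∑ a, ∑ u, G a u) = ∑ a, ∑ u, if a < u then G a u + G u a else 0 := by
  have e : ∀ a u, G a u = (if a < u then G a u else 0) + if u < a then G a u else 0 := by
    intro a u
    rcases lt_trichotomy a u with g | g | g
    · simp [g, g.not_gt]
    · simp [g, h]
    · simp [g, g.not_gt]
  have s : (∑ a, ∑ u, if u < a then G a u else 0) = ∑ a, ∑ u, if a < u then G u a else 0 :=
    sum_comm
  rw [sum_congr rfl fun a _ => sum_congr rfl fun u _ => e a u]
  simp only [sum_add_distrib]
  rw [s]
  simp only [← sum_add_distrib]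
  refine sum_congr rfl fun a _ => sum_congr rfl fun u _ => ?_
  split_ifs <;> simp

set_option maxHeartbeats 1000000 in
/-- The reduction on symmetric states. -/
theorem K_sym (F : Fin N × Fin N → R) (hF : opT q F = F) :
    opK q x F = opH q x (opDU q x F) := by
  have hp : ∀ a u, a < u → F (a, u) = q * F (u, a) := by
    intro a u g
    have := congrFun hF (a, u)
    simpa [opT, g] using this.symm
  have e : opH q x (opDU q x F)
      = (1 + q) • opDU q x (opDU q x F) - q • opU q x (opD (opDU q x F)) := by
    rw [LinearMap.congr_fun (opDU_eq q x) (opDU q x F)]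
    simp only [opH, LinearMap.sub_apply, LinearMap.smul_apply, LinearMap.comp_apply]
    module
  rw [e]
  funext p
  obtain ⟨c, d⟩ := p
  by_cases hcd : c = d
  · simp [opK, opDU, opU, hcd]
  have v : ∀ b w, opDU q x F (b, w)
      = if b ≠ w then qi q b w * x w *
        (∑ a, if a ≠ b ∧ a ≠ w then qi q a w * F (a, b) else 0) else 0 := fun b w => rfl
  have h1 : opDU q x (opDU q x F) (c, d) = qi q c d * x c * x d *
      ∑ a, ∑ u, (if u ≠ c ∧ u ≠ d ∧ a ≠ u ∧ a ≠ c then qi q u d * (qi q a c * qi q u c) else 0)
        * F (a, u) := by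
    rw [sum_comm]
    simp only [opDU, LinearMap.coe_mk, AddHom.coe_mk, if_pos hcd, mul_sum]
    refine sum_congr rfl fun u _ => ?_
    split_ifs with g g' <;> try simp only [mul_sum, mul_zero]
    · refine sum_congr rfl fun a _ => ?_
      split_ifs <;> first | ring1 | omega
    all_goals
      refine (sum_eq_zero fun a _ => ?_).symm
      split_ifs <;> first | ring1 | omega
  have h2 : opU q x (opD (opDU q x F)) (c, d) = qi q c d * x c * x d *
      ∑ a, ∑ u, (if u ≠ c ∧ a ≠ u ∧ a ≠ c then qi q a c * qi q u c else 0) * F (a, u) := by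
    rw [sum_comm]
    simp only [opU, opD, LinearMap.coe_mk, AddHom.coe_mk, if_pos hcd, mul_sum, v]
    refine sum_congr rfl fun u _ => ?_
    split_ifs with g <;> try simp only [mul_sum, mul_zero]
    · refine sum_congr rfl fun a _ => ?_
      split_ifs <;> first | ring1 | omega
    all_goals
      refine (sum_eq_zero fun a _ => ?_).symm
      split_ifs <;> first | ring1 | omega
  simp only [Pi.sub_apply, Pi.smul_apply, smul_eq_mul, h1, h2]
  simp only [opK, LinearMap.coe_mk, AddHom.coe_mk, if_pos hcd]
  rw [← sub_eq_zero]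
  simp only [mul_sum, ← sum_sub_distrib]
  rw [sum_pairs _ fun a => by simp [kk]]
  refine sum_eq_zero fun a _ => sum_eq_zero fun u _ => ?_
  by_cases g : a < u
  · rw [if_pos g, hp a u g]
    simp only [kk, qi, Ne.symm (ne_of_lt g), ne_of_lt g, ne_eq, not_false_eq_true, true_and, and_true]
    split_ifs <;> first | omega | ring1
  · rw [if_neg g]

/-- Symmetrisation of the older pair costs the factor `1 + q`. -/
theorem K_C (F : Fin N × Fin N → R) :
    opK q x (opT q F + q • F) = (1 + q) • opK q x F := by
  funext p
  obtain ⟨c, d⟩ := p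
  by_cases hcd : c = d
  · simp [opK, hcd]
  simp only [opK, LinearMap.coe_mk, AddHom.coe_mk, if_pos hcd, Pi.smul_apply, smul_eq_mul]
  rw [← sub_eq_zero]
  simp only [mul_sum, ← sum_sub_distrib]
  rw [sum_pairs _ fun a => by simp [kk]]
  refine sum_eq_zero fun a _ => sum_eq_zero fun u _ => ?_
  by_cases g : a < u
  · rw [if_pos g]
    simp only [opT, kk, LinearMap.coe_mk, AddHom.coe_mk, Pi.add_apply, Pi.smul_apply, smul_eq_mul,
      qi, g, g.not_gt, if_true, if_false]
    split_ifs <;> first | omega | ring1
  · rw [if_neg g]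

end Vale.Agent.P066.Window
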