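import Vale.Agent.P066.Window.Four

/-!
The images of the generators under the two-vertex map.
-/

namespace Vale.Agent.P066.Window

open Finset

variable {N : ℕ} {R : Type*} [CommRing R] [IsDomain R] (q : R) (x : Fin N → R)

omit [IsDomain R] in
theorem gq_double (t : ℕ) : gq q (2 * t) = (1 + q) * gq (q * q) t := by
  induction t with
  | zero => simp [gq_zero]
  | succ t ih =>
    rw [show 2 * (t + 1) = 2 * t + 1 + 1 by omega, gq_succ, gq_succ, ih, gq_succ (q * q)]
    ring

omit [IsDomain R] in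
theorem gq_shift (a k : ℕ) :
    gq q (a + 1) * gq q (a + k) = gq q a * gq q (a + k + 1) + q ^ a * gq q k := by
  have h : gq q a * (q - 1) = q ^ a - 1 := geom_sum_mul q a
  rw [gq_add q a 1, gq_one, gq_add q a k, add_assoc a k 1, gq_add q a (k + 1), gq_succ q k]
  linear_combination (-(q ^ a * gq q k)) * h

/-- Half of a product of neighbouring `q`-integers. -/
def bb (r : ℕ) : R :=
  if r % 2 = 0 then gq (q * q) (r / 2) * gq q (r - 1) else gq q r * gq (q * q) (r / 2)

omit [IsDomain R] in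
theorem bb_spec (r : ℕ) : (1 + q) * bb q r = gq q r * gq q (r - 1) := by
  rcases Nat.even_or_odd' r with ⟨t, rfl | rfl⟩
  · rw [bb, if_pos (by omega), show 2 * t / 2 = t by omega, gq_double]; ring
  · rw [bb, if_neg (by omega), show (2 * t + 1) / 2 = t by omega,
      show 2 * t + 1 - 1 = 2 * t by omega, gq_double]; ring

variable {q}

omit [IsDomain R] in
theorem opH_apply (v : Fin N × Fin N → R) :
    opH q x v = opU q x (opD v) - (1 + q) • opW q x v := rfl

theorem H_uv_zero (hq : Gen q) :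
    opH q x (uv q x 0) + q • uv q x 1 = (1 + q) • mv q x 1 := by
  rw [opH_apply, D_uv x hq, map_add, map_smul, ← uv, W_uv, gq_zero, mul_zero, zero_mul, zero_smul,
    add_zero]
  linear_combination (norm := module) (1 + q) • aux_one x hq

theorem H_uv_succ (hq : Gen q) (a : ℕ) :
    opH q x (uv q x (a + 1)) + q • uv q x (a + 2) = (1 + q) • evenGen q x 0 a
      + (q * (gq q (a + 1) - (1 + q)) * es x (a + 2)) • base2 q x := by
  rw [opH_apply, D_uv x hq, map_add, map_smul, opU_x, ← uv, W_uv, evenGen_zero x hq]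
  module

theorem H_mv (hq : Gen q) (r : ℕ) : opH q x (mv q x (r + 1))
    = (1 + q) • mv q x (r + 2) + (gq q (r + 2) - (1 + q)) • uv q x (r + 2) := by
  rw [opH_apply, D_mv x hq, map_smul, ← uv, W_sym x _ (T_mv x hq (r + 1)), uv_succ x hq (r + 1)]
  module

theorem K_mv (hq : Gen q) (r : ℕ) : opK q x (mv q x r)
    = (1 + q) • (mv q x (r + 2) + (q * gq q r) • evenGen q x 0 r
      + (q ^ 4 * bb q r * es x (r + 2)) • base2 q x) := by
  rw [K_sym q x _ (T_mv x hq r), DU_mv x hq, map_add, map_smul, H_mv x hq]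
  have h : q * gq q r * (q * (gq q (r + 1) - (1 + q))) = (1 + q) * (q ^ 4 * bb q r) := by
    have hb := bb_spec q r
    rcases r with _ | s
    · simp only [gq_zero, mul_zero, zero_mul] at hb ⊢
      linear_combination (-q ^ 4) * hb
    · rw [show s + 1 - 1 = s by omega] at hb
      rw [gq_succ q (s + 1)]
      rw [gq_succ q s] at hb ⊢
      linear_combination (-q ^ 4) * hb
  have h2 : gq q (r + 2) - (1 + q) = q * (q * gq q r) := by rw [gq_succ, gq_succ]; ring
  have hu := H_uv_succ x hq r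
  linear_combination (norm := module) (q * gq q r) • hu + h2 • uv q x (r + 2)
    + congrArg (fun t : R => (t * es x (r + 2)) • base2 q x) h

theorem H_oddGen (hq : Gen q) (m r : ℕ) : opH q x (oddGen q x m r)
    = (1 + q) • evenGen q x (m + 1) r + opU q x (restO q x m r - q • carryO q x m r) := by
  have h := DU_oddGen x hq m r
  rw [DU_apply] at h
  rw [opH_apply, map_sub, map_smul]
  rw [D_oddGen x hq, dOdd_split, map_add] at h ⊢
  linear_combination (norm := module) (1 + q) • h

variable (q)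

/-- The generator part of the image of an even generator. -/
def eSum (m r : ℕ) : Fin N × Fin N → R :=
  (∑ i ∈ range (m + 2),
      (q ^ (i + 1) * gq q (2 * m + 1 - i) * es x i) • evenGen q x 0 (2 * m + 2 + r - i))
    + (q ^ (2 * m + 3) * gq q r * es x (2 * m + 3 + r)) • mv q x 1
    + ∑ j ∈ range m,
      (q ^ (2 * m + 2 - j) * gq q (r + j + 1) * es x (2 * m + 2 + r - j)) • evenGen q x 0 j

/-- Reset coefficient, first term. -/
def zFst (m r : ℕ) : R :=
  q ^ 4 * (gq (q * q) m * gq q (2 * m + 2 + r) + q ^ (2 * m) * gq q r)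

/-- Reset coefficient, second term. -/
def zSnd (m r : ℕ) : R := q ^ 5 * gq (q * q) m * gq q (2 * m + r)

/-- Reset coefficient, middle terms. -/
def zMid (m r j : ℕ) : R :=
  if j = 0 then q ^ 6 * gq (q * q) (m - 1) * gq q (2 * m + r)
  else if j % 2 = 1 then
    q ^ (j + 6) * gq (q * q) (m - 1 - j / 2) * gq q (2 * m - 1 - j + r)
      + q ^ (2 * m + 5 - j) * gq (q * q) (j / 2) * gq q (r + j + 1)
  else
    q ^ (j + 6) * gq (q * q) (m - 1 - j / 2) * gq q (2 * m + r - j)
      + q ^ (2 * m + 3) * gq q (r + 2)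
      + q ^ (2 * m + 5 - j) * gq (q * q) (j / 2 - 1) * gq q (r + j + 2)

/-- The reset part of the image of an even generator. -/
def zBase (m r : ℕ) : R :=
  zFst q m r * es x (2 * m + 4 + r) + zSnd q m r * (es x 1 * es x (2 * m + 3 + r))
    + ∑ j ∈ range m, zMid q m r j * (es x (j + 2) * es x (2 * m + 2 + r - j))

omit [IsDomain R] in
theorem zFst_spec (m r : ℕ) : (1 + q) * zFst q m r
    = q * gq q (2 * m + 1) * (q * (gq q (2 * m + 3 + r) - (1 + q)))
      + (q ^ (2 * m + 4) * gq q r - q * q ^ (2 * m + 3)) := by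
  have h := gq_shift q (2 * m) (r + 1)
  rw [gq_double] at h
  rw [zFst, show 2 * m + 3 + r = 2 * m + (r + 1) + 1 + 1 by omega,
    show 2 * m + 2 + r = 2 * m + (r + 1) + 1 by omega, gq_succ q (2 * m + (r + 1) + 1),
    gq_succ q (2 * m + (r + 1))] at *
  rw [show gq q (2 * m + (r + 1)) = gq q (2 * m + (r + 1)) from rfl, pow_add q (2 * m) 4,
    pow_add q (2 * m) 3]
  have hr := gq_succ q r
  linear_combination (-q ^ 4) * h - q ^ (2 * m) * q ^ 4 * hr

omit [IsDomain R] in
theorem zSnd_spec (m r : ℕ) : (1 + q) * zSnd q m r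
    = q ^ 2 * gq q (2 * m) * (q * (gq q (2 * m + 2 + r) - (1 + q))) := by
  rw [zSnd, show 2 * m + 2 + r = 2 * m + r + 1 + 1 by omega, gq_succ q (2 * m + r + 1),
    gq_succ q (2 * m + r), gq_double]
  ring

omit [IsDomain R] in
theorem zMid_spec (m r j : ℕ) (hj : j < m) : (1 + q) * zMid q m r j
    = q ^ (j + 2 + 1) * gq q (2 * m + 1 - (j + 2))
        * (q * (gq q (2 * m + 3 + r - (j + 2)) - (1 + q)))
      + q ^ (2 * m + 2 - j) * gq q (r + j + 1) * (q * (gq q (j + 1) - (1 + q))) := by
  rw [zMid]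
  obtain ⟨l, rfl⟩ : ∃ l, m = j + 1 + l := ⟨m - j - 1, by omega⟩
  rcases j with _ | j
  · have h := gq_shift q (2 * l) (r + 1)
    rw [gq_double] at h
    rw [if_pos rfl, show 0 + 1 + l - 1 = l by omega,
      show 2 * (0 + 1 + l) + r = 2 * l + (r + 1) + 1 by omega,
      show 2 * (0 + 1 + l) + 1 - (0 + 2) = 2 * l + 1 by omega,
      show 2 * (0 + 1 + l) + 3 + r - (0 + 2) = 2 * l + (r + 1) + 1 + 1 by omega,
      show 2 * (0 + 1 + l) + 2 - 0 = 2 * l + 4 by omega,
      show r + 0 + 1 = r + 1 by omega, gq_succ q (2 * l + (r + 1) + 1),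
      gq_succ q (2 * l + (r + 1)), pow_add q (2 * l) 4] at *
    simp only [gq_one, zero_add]
    linear_combination (-q ^ 6) * h
  · rw [if_neg (by omega)]
    rcases Nat.even_or_odd' j with ⟨t, rfl | rfl⟩
    · rw [if_pos (by omega), show 2 * t + 1 + 1 + l - 1 - (2 * t + 1) / 2 = t + l + 1 by omega,
        show 2 * (2 * t + 1 + 1 + l) - 1 - (2 * t + 1) + r = 2 * (t + l + 1) + r by omega,
        show 2 * (2 * t + 1 + 1 + l) + 1 - (2 * t + 1 + 2) = 2 * (t + l + 1) by omega,
        show 2 * (2 * t + 1 + 1 + l) + 3 + r - (2 * t + 1 + 2) = 2 * (t + l + 1) + r + 1 + 1 by omega,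
        show 2 * (2 * t + 1 + 1 + l) + 5 - (2 * t + 1) = 2 * t + 2 * l + 6 + 2 by omega,
        show 2 * (2 * t + 1 + 1 + l) + 2 - (2 * t + 1) = 2 * t + 2 * l + 5 by omega,
        show (2 * t + 1) / 2 = t by omega, gq_succ q (2 * (t + l + 1) + r + 1),
        gq_succ q (2 * (t + l + 1) + r), gq_succ q (2 * t + 1), gq_succ q (2 * t),
        gq_double, gq_double]
      ring
    · have h1 := gq_shift q (2 * (t + l + 1)) (r + 1)
      have h2 := gq_shift q (2 * t) (r + 3)
      rw [gq_double] at h1 h2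
      have hA : gq q (r + 3) + q * gq q (r + 1) = (1 + q) * gq q (r + 2) := by
        rw [gq_add q (r + 1) 2, gq_add q (r + 1) 1, gq_succ q 1, gq_one]; ring
      rw [if_neg (by omega),
        show 2 * t + 1 + 1 + 1 + l - 1 - (2 * t + 1 + 1) / 2 = t + l + 1 by omega,
        show 2 * (2 * t + 1 + 1 + 1 + l) + r - (2 * t + 1 + 1) = 2 * (t + l + 1) + (r + 1) + 1 by omega,
        show 2 * (2 * t + 1 + 1 + 1 + l) + 1 - (2 * t + 1 + 1 + 2) = 2 * (t + l + 1) + 1 by omega,
        show 2 * (2 * t + 1 + 1 + 1 + l) + 3 + r - (2 * t + 1 + 1 + 2)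
          = 2 * (t + l + 1) + (r + 1) + 1 + 1 by omega,
        show 2 * (2 * t + 1 + 1 + 1 + l) + 5 - (2 * t + 1 + 1) = 2 * (t + l + 1) + 7 by omega,
        show 2 * (2 * t + 1 + 1 + 1 + l) + 2 - (2 * t + 1 + 1) = 2 * (t + l + 1) + 4 by omega,
        show 2 * (2 * t + 1 + 1 + 1 + l) + 3 = 2 * t + (2 * (t + l + 1) + 7) by omega,
        show (2 * t + 1 + 1) / 2 - 1 = t by omega,
        show r + (2 * t + 1 + 1) + 2 = 2 * t + (r + 3) + 1 by omega,
        show r + (2 * t + 1 + 1) + 1 = 2 * t + (r + 3) by omega,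
        show 2 * t + 1 + 1 + 6 = 2 * t + 8 by omega,
        show 2 * t + 1 + 1 + 2 + 1 = 2 * t + 5 by omega,
        gq_succ q (2 * (t + l + 1) + (r + 1) + 1), gq_succ q (2 * (t + l + 1) + (r + 1)),
        gq_succ q (2 * t + 1 + 1), gq_succ q (2 * t + 1)]
      simp only [pow_add]
      have hS := gq_succ q (2 * (t + l + 1) + r + 1)
      linear_combination (-(q ^ (2 * t) * q ^ 8 * gq (q * q) (t + l + 1) * (1 + q))) * hS
        + (-(q ^ (2 * t) * q ^ 8)) * h1
        + (-(q ^ (2 * (t + l + 1)) * q ^ 7)) * h2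
        + (-(q ^ (2 * t) * (q ^ (2 * (t + l + 1)) * q ^ 7))) * hA

variable {q}

theorem K_even (hq : Gen q) (m r : ℕ) : opK q x (evenGen q x m r)
    = (1 + q) • (evenGen q x (m + 1) r + eSum q x m r + zBase q x m r • base2 q x) := by
  rw [K_sym q x _ (T_evenGen x hq m r), DU_evenGen x hq, map_add, H_oddGen x hq, map_sub, map_smul]
  have hi : ∀ i ∈ range (m + 2),
      (q ^ (i + 1) * gq q (2 * m + 1 - i) * es x i) • opH q x (uv q x (2 * m + 3 + r - i))
        + (q ^ (i + 1) * gq q (2 * m + 2 - i) * es x i) • uv q x (2 * m + 4 + r - i)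
        - q • ((q ^ i * es x i) • uv q x (2 * m + 4 + r - i))
      = (1 + q) • ((q ^ (i + 1) * gq q (2 * m + 1 - i) * es x i) •
            evenGen q x 0 (2 * m + 2 + r - i))
        + (q ^ (i + 1) * gq q (2 * m + 1 - i) * (q * (gq q (2 * m + 3 + r - i) - (1 + q)))
            * (es x i * es x (2 * m + 4 + r - i))) • base2 q x := by
    intro i hi
    rw [mem_range] at hi
    rw [show 2 * m + 3 + r - i = 2 * m + 2 + r - i + 1 by omega,
      show 2 * m + 4 + r - i = 2 * m + 2 + r - i + 2 by omega,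
      show 2 * m + 2 - i = 2 * m + 1 - i + 1 by omega, gq_succ q (2 * m + 1 - i)]
    linear_combination (norm := module) (q ^ (i + 1) * gq q (2 * m + 1 - i) * es x i) •
      H_uv_succ x hq (2 * m + 2 + r - i)
  have hj : ∀ j ∈ range m,
      (q ^ (2 * m + 3 - (j + 1)) * gq q (r + (j + 1)) * es x (2 * m + 3 + r - (j + 1))) •
          opH q x (uv q x (j + 1))
        + (q ^ (2 * m + 3 - (j + 1)) * gq q (1 + r + (j + 1)) * es x (2 * m + 3 + r - (j + 1))) •
          uv q x (j + 1 + 1)
        - q • ((q ^ (2 * m + 2 - (j + 1)) * es x (2 * m + 3 + r - (j + 1))) • uv q x (j + 1 + 1))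
      = (1 + q) • ((q ^ (2 * m + 2 - j) * gq q (r + j + 1) * es x (2 * m + 2 + r - j)) •
            evenGen q x 0 j)
        + (q ^ (2 * m + 2 - j) * gq q (r + j + 1) * (q * (gq q (j + 1) - (1 + q)))
            * (es x (j + 2) * es x (2 * m + 2 + r - j))) • base2 q x := by
    intro j hj
    rw [mem_range] at hj
    rw [show 2 * m + 3 + r - (j + 1) = 2 * m + 2 + r - j by omega,
      show 2 * m + 3 - (j + 1) = 2 * m + 2 - (j + 1) + 1 by omega,
      show 2 * m + 2 - j = 2 * m + 2 - (j + 1) + 1 by omega,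
      show r + (j + 1) = r + j + 1 by omega, show 1 + r + (j + 1) = r + j + 1 + 1 by omega,
      gq_succ q (r + j + 1)]
    linear_combination (norm := module)
      (q ^ (2 * m + 2 - (j + 1) + 1) * gq q (r + j + 1) * es x (2 * m + 2 + r - j)) •
        H_uv_succ x hq j
  have h0 : (q ^ (2 * m + 3 - 0) * gq q (r + 0) * es x (2 * m + 3 + r - 0)) •
          opH q x (uv q x 0)
        + (q ^ (2 * m + 3 - 0) * gq q (1 + r + 0) * es x (2 * m + 3 + r - 0)) • uv q x (0 + 1)
        - q • ((q ^ (2 * m + 2 - 0) * es x (2 * m + 3 + r - 0)) • uv q x (0 + 1))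
      = (1 + q) • ((q ^ (2 * m + 3) * gq q r * es x (2 * m + 3 + r)) • mv q x 1) := by
    rw [show r + 0 = r by omega, show 1 + r + 0 = r + 1 by omega, gq_succ q r,
      show 2 * m + 3 - 0 = 2 * m + 2 + 1 by omega, show 2 * m + 3 = 2 * m + 2 + 1 by omega,
      show 2 * m + 2 - 0 = 2 * m + 2 by omega, Nat.sub_zero, zero_add]
    linear_combination (norm := module)
      (q ^ (2 * m + 2 + 1) * gq q r * es x (2 * m + 2 + 1 + r)) • H_uv_zero x hq
  have hz : (∑ i ∈ range (m + 2),
        q ^ (i + 1) * gq q (2 * m + 1 - i) * (q * (gq q (2 * m + 3 + r - i) - (1 + q)))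
          * (es x i * es x (2 * m + 4 + r - i)))
      + (∑ j ∈ range m, q ^ (2 * m + 2 - j) * gq q (r + j + 1) * (q * (gq q (j + 1) - (1 + q)))
          * (es x (j + 2) * es x (2 * m + 2 + r - j)))
      + (q ^ (2 * m + 4) * gq q r - q * q ^ (2 * m + 3)) * es x (2 * m + 4 + r)
      = (1 + q) * zBase q x m r := by
    have hm : ∀ j ∈ range m,
        q ^ (j + 1 + 1 + 1) * gq q (2 * m + 1 - (j + 1 + 1))
            * (q * (gq q (2 * m + 3 + r - (j + 1 + 1)) - (1 + q)))
            * (es x (j + 1 + 1) * es x (2 * m + 4 + r - (j + 1 + 1)))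
          + q ^ (2 * m + 2 - j) * gq q (r + j + 1) * (q * (gq q (j + 1) - (1 + q)))
            * (es x (j + 2) * es x (2 * m + 2 + r - j))
        = (1 + q) * (zMid q m r j * (es x (j + 2) * es x (2 * m + 2 + r - j))) := by
      intro j hj
      rw [mem_range] at hj
      rw [show 2 * m + 4 + r - (j + 1 + 1) = 2 * m + 2 + r - j by omega,
        show j + 1 + 1 = j + 2 by omega]
      linear_combination (-(es x (j + 2) * es x (2 * m + 2 + r - j))) * zMid_spec q m r j hj
    rw [sum_range_succ', sum_range_succ', zBase, mul_add, mul_add, mul_sum, ← sum_congr rfl hm,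
      sum_add_distrib]
    simp only [Nat.sub_zero, zero_add, pow_one, es_zero, one_mul,
      show 2 * m + 1 - 1 = 2 * m by omega, show 2 * m + 3 + r - 1 = 2 * m + 2 + r by omega,
      show 2 * m + 4 + r - 1 = 2 * m + 3 + r by omega, show 1 + 1 = 2 by omega]
    linear_combination (-es x (2 * m + 4 + r)) * zFst_spec q m r
      - (es x 1 * es x (2 * m + 3 + r)) * zSnd_spec q m r
  have hzb := congrArg (fun t : R => t • base2 q x) hz
  simp only [add_smul, sum_smul] at hzb
  have hU : ∀ a, opU q x (bv q x a) = uv q x a := fun a => rfl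
  simp only [restE, restO, carryO, eSum, map_add, map_sum, map_smul, hU, opU_x, smul_add, smul_sum]
  rw [sum_range_succ' _ m, sum_range_succ' _ m, sum_range_succ' _ m]
  have A := sum_congr rfl hi
  have B := sum_congr rfl hj
  rw [sum_sub_distrib, sum_add_distrib, sum_add_distrib] at A B
  linear_combination (norm := module) A + B + h0 + hzb

theorem C_uv (s : ℕ) :
    opT q (uv q x s) + q • uv q x s = uv q x s + q • nv q x s := by
  rw [uv_eq_T, T_sq]
  module

theorem C_uv_zero :
    opT q (uv q x 0) + q • uv q x 0 = (1 + q) • base2 q x := by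
  rw [uv_zero, opT_base2]
  module

theorem C_uv_succ (hq : Gen q) (s : ℕ) : opT q (uv q x (s + 1)) + q • uv q x (s + 1)
    = (1 + q) • mv q x (s + 1) + q • opS (q := q) x (mv q x s) := by
  rw [C_uv x, uv_succ x hq, nv_succ x hq, opS_apply]
  module

theorem C_Y1 (hq : Gen q) (v : Fin N × Fin N → R) (h : opT q v = v) :
    opT q (opY1 q x v) + q • opY1 q x v = opS (q := q) x v := by
  rw [T_Y1 x hq, h, opS_apply]
  module

theorem S_kv (hq : Gen q) (a c : ℕ) :
    opS (q := q) x (kv q x a c) = es x (a + 2) • mv q x c - es x (c + 2) • mv q x a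
      - kv q x (a + 1) c - kv q x a (c + 1) := by
  rw [opM_succ_succ q x a (mv q x c), opM_succ_succ q x c (mv q x a), kv, kv, kv, map_sub]
  have hm : ∀ u v : ℕ, opM q x u (mv q x v) = mm q x u v := fun _ _ => rfl
  simp only [hm]
  rw [mm_comm x hq (c + 2) a, mm_comm x hq (c + 1) a, mm_comm x hq c a]
  abel

theorem C_odd (hq : Gen q) (m r : ℕ) : opT q (oddGen q x m r) + q • oddGen q x m r
    = (1 + q) • ((∑ i ∈ range (m + 2), (q ^ i * es x i) • mv q x (2 * m + 3 + r - i))
        + ∑ j ∈ range (m + 1), (q ^ (2 * m + 2 - j) * es x (2 * m + 3 + r - j)) • mv q x j)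
      - q ^ (m + 2) • (es x (m + 1 + r + 2) • mv q x m - es x (m + 2) • mv q x (m + 1 + r)
        - kv q x (m + 1 + r + 1) m - kv q x (m + 1 + r) (m + 1)) := by
  rw [← S_kv x hq]
  have hC := C_Y1 x hq _ (T_evenGen x hq m r)
  have hi : ∀ i ∈ range (m + 2),
      (q ^ i * es x i) • opT q (uv q x (2 * m + 3 + r - i))
        + q • ((q ^ i * es x i) • uv q x (2 * m + 3 + r - i))
        - q • opS (q := q) x (lowE q x m r i)
      = (1 + q) • ((q ^ i * es x i) • mv q x (2 * m + 3 + r - i)) := by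
    intro i hi
    rw [mem_range] at hi
    rw [lowE, map_smul, show 2 * m + 3 + r - i = 2 * m + 2 + r - i + 1 by omega]
    linear_combination (norm := module) (q ^ i * es x i) • C_uv_succ x hq (2 * m + 2 + r - i)
  have hj : ∀ j ∈ range m,
      (q ^ (2 * m + 2 - (j + 1)) * es x (2 * m + 3 + r - (j + 1))) • opT q (uv q x (j + 1))
        + q • ((q ^ (2 * m + 2 - (j + 1)) * es x (2 * m + 3 + r - (j + 1))) • uv q x (j + 1))
        - q • opS (q := q) x (highE q x m r j)
      = (1 + q) • ((q ^ (2 * m + 2 - (j + 1)) * es x (2 * m + 3 + r - (j + 1))) •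
          mv q x (j + 1)) := by
    intro j hj
    rw [mem_range] at hj
    rw [highE, map_smul, show 2 * m + 2 - (j + 1) = 2 * m + 1 - j by omega,
      show 2 * m + 3 + r - (j + 1) = 2 * m + 2 + r - j by omega]
    linear_combination (norm := module)
      (q ^ (2 * m + 1 - j) * es x (2 * m + 2 + r - j)) • C_uv_succ x hq j
  have h0 := C_uv_zero (q := q) x
  rw [← mv_zero] at h0
  have hU : ∀ a, opU q x (bv q x a) = uv q x a := fun a => rfl
  rw [oddGen]
  simp only [map_sub, map_smul]
  simp only [carryE, map_add, map_sum, map_smul, hU, smul_add, smul_sum]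
  rw [sum_range_succ' _ m, sum_range_succ' _ m, sum_range_succ' _ m]
  have hE : opS (q := q) x (evenGen q x m r)
      = (∑ i ∈ range (m + 2), opS (q := q) x (lowE q x m r i))
        + (∑ j ∈ range m, opS (q := q) x (highE q x m r j))
        + q ^ (m + 1) • opS (q := q) x (kv q x (m + 1 + r) m) := by
    simp only [evenGen, map_add, map_sum, map_smul]
  rw [hE] at hC
  have A := sum_congr rfl hi
  have B := sum_congr rfl hj
  rw [sum_sub_distrib, sum_add_distrib] at A B
  simp only [← smul_sum] at A B ⊢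
  linear_combination (norm := module)
    A + B + (q ^ (2 * m + 2 - 0) * es x (2 * m + 3 + r - 0)) • h0 - q • hC

theorem C_odd_succ (hq : Gen q) (m r : ℕ) :
    opT q (oddGen q x m (r + 1)) + q • oddGen q x m (r + 1)
      = evenGen q x (m + 1) r + q • evenGen q x m (r + 2) := by
  rw [C_odd x hq, evenGen, evenGen, sum_range_succ _ (m + 2)]
  have hi : ∀ i ∈ range (m + 2), (1 + q) • ((q ^ i * es x i) • mv q x (2 * m + 3 + (r + 1) - i))
      = lowE q x (m + 1) r i + q • lowE q x m (r + 2) i := by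
    intro i hi
    rw [mem_range] at hi
    rw [lowE, lowE, show 2 * (m + 1) + 2 + r - i = 2 * m + 3 + (r + 1) - i by omega,
      show 2 * m + 2 + (r + 2) - i = 2 * m + 3 + (r + 1) - i by omega]
    module
  have hj : ∀ j ∈ range m,
      (1 + q) • ((q ^ (2 * m + 2 - j) * es x (2 * m + 3 + (r + 1) - j)) • mv q x j)
      = highE q x (m + 1) r j + q • highE q x m (r + 2) j := by
    intro j hj
    rw [mem_range] at hj
    rw [highE, highE, show 2 * (m + 1) + 1 - j = 2 * m + 1 - j + 2 by omega,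
      show 2 * m + 2 - j = 2 * m + 1 - j + 1 by omega,
      show 2 * (m + 1) + 2 + r - j = 2 * m + 3 + (r + 1) - j by omega,
      show 2 * m + 2 + (r + 2) - j = 2 * m + 3 + (r + 1) - j by omega]
    module
  have A := sum_congr rfl hi
  have B := sum_congr rfl hj
  rw [sum_add_distrib, ← smul_sum, ← smul_sum] at A B
  rw [sum_range_succ _ m, sum_range_succ _ m, lowE, highE,
    show 2 * m + 2 - m = m + 2 by omega, show 2 * (m + 1) + 1 - m = m + 3 by omega,
    show 2 * m + 3 + (r + 1) - m = m + r + 4 by omega,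
    show m + 1 + (r + 1) + 2 = m + r + 4 by omega,
    show 2 * (m + 1) + 2 + r - m = m + r + 4 by omega,
    show 2 * (m + 1) + 2 + r - (m + 2) = m + 1 + (r + 1) by omega,
    show m + 1 + 1 + r = m + 1 + (r + 1) by omega,
    show m + 1 + (r + 2) = m + 1 + (r + 1) + 1 by omega]
  linear_combination (norm := module) A + B

variable (q)

/-- The symmetric part for an odd generator with `r = 0`. -/
def oSym (m : ℕ) : Fin N × Fin N → R :=
  (∑ i ∈ range (m + 2), (q ^ i * es x i) • mv q x (2 * m + 3 - i))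
    + ∑ j ∈ range (m + 2), (q ^ (2 * m + 3 - j) * es x (2 * m + 3 - j)) • mv q x j

variable {q}

theorem C_odd_zero (hq : Gen q) (m : ℕ) :
    opT q (oddGen q x m 0) + q • oddGen q x m 0 = oSym q x m + q • evenGen q x m 1 := by
  rw [C_odd x hq, evenGen, oSym]
  simp only [add_zero]
  have hk : kv q x (m + 1) (m + 1) = 0 := by
    rw [kv, mm_comm x hq (m + 1) (m + 1 + 1), sub_self]
  have hi : ∀ i ∈ range (m + 2), (1 + q) • ((q ^ i * es x i) • mv q x (2 * m + 3 - i))
      = (q ^ i * es x i) • mv q x (2 * m + 3 - i) + q • lowE q x m 1 i := by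
    intro i hi
    rw [lowE, show 2 * m + 2 + 1 - i = 2 * m + 3 - i by omega]
    module
  have hj : ∀ j ∈ range m,
      (1 + q) • ((q ^ (2 * m + 2 - j) * es x (2 * m + 3 - j)) • mv q x j)
      = (q ^ (2 * m + 3 - j) * es x (2 * m + 3 - j)) • mv q x j + q • highE q x m 1 j := by
    intro j hj
    rw [mem_range] at hj
    rw [highE, show 2 * m + 2 - j = 2 * m + 1 - j + 1 by omega,
      show 2 * m + 3 - j = 2 * m + 1 - j + 2 by omega]
    module
  have A := sum_congr rfl hi
  have B := sum_congr rfl hj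
  rw [sum_add_distrib, ← smul_sum, ← smul_sum] at A B
  have hs : (∑ j ∈ range (m + 2), (q ^ (2 * m + 3 - j) * es x (2 * m + 3 - j)) • mv q x j)
      = (∑ j ∈ range m, (q ^ (2 * m + 3 - j) * es x (2 * m + 3 - j)) • mv q x j)
        + (q ^ (m + 3) * es x (m + 3)) • mv q x m
        + (q ^ (m + 2) * es x (m + 2)) • mv q x (m + 1) := by
    rw [sum_range_succ, sum_range_succ, show 2 * m + 3 - m = m + 3 by omega,
      show 2 * m + 3 - (m + 1) = m + 2 by omega]
  rw [hs, sum_range_succ _ m, hk, show 2 * m + 2 - m = m + 2 by omega,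
    show 2 * m + 3 - m = m + 3 by omega, show m + 1 + 2 = m + 3 by omega]
  linear_combination (norm := module) A + B

end Vale.Agent.P066.Window
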