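import Vale.Agent.P066.Window.Cone
import Vale.Agent.P066.Window.FourGens

/-!
The two-vertex map preserves the positive cone.
-/

namespace Vale.Agent.P066.Window

open Finset

theorem es_zero_prod {N : ℕ} (l : Multiset ℕ) (h : l.sum = 0) :
    (l.map (es (xR N))).prod = 1 := by
  refine Multiset.prod_eq_one fun y hy => ?_
  obtain ⟨a, ha, rfl⟩ := Multiset.mem_map.1 hy
  rw [Multiset.sum_eq_zero_iff.1 h a ha, es_zero]

theorem Sc.add0 {s t : ∀ N, Rg N} (hs : s ∈ Sc 0) (ht : t ∈ Sc 0) :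
    (fun N => s N + t N) ∈ Sc 0 := by
  obtain ⟨c, l, hl, rfl⟩ := hs
  obtain ⟨d, k, hk, rfl⟩ := ht
  refine ⟨c + d, 0, rfl, funext fun N => ?_⟩
  simp only [es_zero_prod _ hl, es_zero_prod _ hk, mul_one, Multiset.map_zero, Multiset.prod_zero]
  simp [natC]

theorem Sc.gqq (t : ℕ) : (fun N => Window.gq (qR N * qR N) t) ∈ Sc 0 := by
  induction t with
  | zero => simpa [gq_zero, natC] using Sc.const 0
  | succ t ih =>
    simp only [gq_succ]
    exact Sc.add0 Sc.one (Sc.mul (Sc.mul Sc.q Sc.q) ih)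

theorem Sc.one_add_q : (fun N => 1 + qR N) ∈ Sc 0 := Sc.add0 Sc.one Sc.q

theorem Sc.bb (r : ℕ) : (fun N => Window.bb (qR N) r) ∈ Sc 0 := by
  simp only [Window.bb]
  by_cases h : r % 2 = 0
  · simp only [if_pos h]; exact Sc.mul (Sc.gqq _) (Sc.gq _)
  · simp only [if_neg h]; exact Sc.mul (Sc.gq _) (Sc.gqq _)

theorem Sc.zFst (m r : ℕ) : (fun N => Window.zFst (qR N) m r) ∈ Sc 0 :=
  Sc.mul (Sc.qpow 4) (Sc.add0 (Sc.mul (Sc.gqq m) (Sc.gq _)) (Sc.mul (Sc.qpow _) (Sc.gq r)))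

theorem Sc.zSnd (m r : ℕ) : (fun N => Window.zSnd (qR N) m r) ∈ Sc 0 :=
  Sc.mul (Sc.mul (Sc.qpow 5) (Sc.gqq m)) (Sc.gq _)

theorem Sc.zMid (m r j : ℕ) : (fun N => Window.zMid (qR N) m r j) ∈ Sc 0 := by
  simp only [Window.zMid]
  by_cases h : j = 0
  · simp only [if_pos h]; exact Sc.mul (Sc.mul (Sc.qpow _) (Sc.gqq _)) (Sc.gq _)
  by_cases h' : j % 2 = 1
  · simp only [if_neg h, if_pos h']
    exact Sc.add0 (Sc.mul (Sc.mul (Sc.qpow _) (Sc.gqq _)) (Sc.gq _))
      (Sc.mul (Sc.mul (Sc.qpow _) (Sc.gqq _)) (Sc.gq _))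
  · simp only [if_neg h, if_neg h']
    exact Sc.add0 (Sc.add0 (Sc.mul (Sc.mul (Sc.qpow _) (Sc.gqq _)) (Sc.gq _))
      (Sc.mul (Sc.qpow _) (Sc.gq _))) (Sc.mul (Sc.mul (Sc.qpow _) (Sc.gqq _)) (Sc.gq _))

/-- States whose image is `1 + q` times a positive state. -/
def Twice (n : ℕ) (f : ∀ N, Fin N × Fin N → Rg N) : Prop :=
  ∃ G ∈ Pos2 (n + 2), ∀ N, opK (qR N) (xR N) (f N) = (1 + qR N) • G N

theorem Twice.add {n : ℕ} {f g : ∀ N, Fin N × Fin N → Rg N} (hf : Twice n f) (hg : Twice n g) :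
    Twice n fun N => f N + g N := by
  obtain ⟨F, hF, eF⟩ := hf
  obtain ⟨G, hG, eG⟩ := hg
  exact ⟨_, pos2_add hF hG, fun N => by rw [map_add, eF, eG, smul_add]⟩

theorem Twice.smul {k n n' : ℕ} {s : ∀ N, Rg N} {f : ∀ N, Fin N × Fin N → Rg N} (hs : s ∈ Sc k)
    (hf : Twice n f) (e : k + n = n') : Twice n' fun N => s N • f N := by
  obtain ⟨F, hF, eF⟩ := hf
  exact ⟨fun N => s N • F N, pos2_smul hs hF (by omega), fun N => by
    rw [map_smul, eF, smul_comm]⟩

theorem Twice.sum {n : ℕ} {ι : Type*} (S : Finset ι) (f : ι → ∀ N, Fin N × Fin N → Rg N)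
    (h : ∀ i ∈ S, Twice n (f i)) : Twice n fun N => ∑ i ∈ S, f i N := by
  classical
  induction S using Finset.induction with
  | empty => exact ⟨0, (Pos2 _).zero_mem, fun N => by simp⟩
  | insert a S ha ih =>
    simp only [sum_insert ha]
    exact Twice.add (h a (mem_insert_self a S)) (ih fun i hi => h i (mem_insert_of_mem hi))

theorem pos2_sum {n : ℕ} {ι : Type*} (S : Finset ι) (g : ι → ∀ N, Fin N × Fin N → Rg N)
    (h : ∀ i ∈ S, g i ∈ Pos2 n) : (fun N => ∑ i ∈ S, g i N) ∈ Pos2 n := by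
  have := (Pos2 n).sum_mem h
  have e : (fun N => ∑ i ∈ S, g i N) = ∑ i ∈ S, g i :=
    funext fun N => (Finset.sum_apply N S g).symm
  rw [e]; exact this

theorem pos2_base {n k : ℕ} {s : ∀ N, Rg N} (hs : s ∈ Sc k) (h : k + 2 = n) :
    (fun N => s N • base2 (qR N) (xR N)) ∈ Pos2 n := by
  simpa [uv_zero] using pos2_atom hs (.pendant 0) (n := n) (by omega)

theorem twice_mv (r : ℕ) : Twice (r + 2) fun N => mv (qR N) (xR N) r :=
  ⟨_, pos2_add (pos2_add (pos2_gen (.clique (r + 2)))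
      (pos2_atom (Sc.mul Sc.q (Sc.gq r)) (.even 0 r) (by omega)))
      (pos2_base (Sc.mul (Sc.mul (Sc.qpow 4) (Sc.bb r)) (Sc.es (r + 2))) (by omega)),
    fun _ => K_mv _ (gen_qR _) r⟩

theorem eSum_pos (m r : ℕ) :
    (fun N => eSum (qR N) (xR N) m r) ∈ Pos2 (2 * m + 6 + r) := by
  refine pos2_add (pos2_add (pos2_sum _ _ fun i hi => ?_) ?_) (pos2_sum _ _ fun j hj => ?_)
  · rw [mem_range] at hi
    exact pos2_atom (Sc.mul (Sc.mul (Sc.qpow _) (Sc.gq _)) (Sc.es i)) (.even 0 _) (by omega)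
  · exact pos2_atom (Sc.mul (Sc.mul (Sc.qpow _) (Sc.gq _)) (Sc.es _)) (.clique 1) (by omega)
  · rw [mem_range] at hj
    exact pos2_atom (Sc.mul (Sc.mul (Sc.qpow _) (Sc.gq _)) (Sc.es _)) (.even 0 _) (by omega)

theorem zBase_pos (m r : ℕ) :
    (fun N => zBase (qR N) (xR N) m r • base2 (qR N) (xR N)) ∈ Pos2 (2 * m + 6 + r) := by
  simp only [zBase, add_smul, sum_smul]
  refine pos2_add (pos2_add ?_ ?_) (pos2_sum _ _ fun j hj => ?_)
  · exact pos2_base (Sc.mul (Sc.zFst m r) (Sc.es _)) (by omega)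
  · exact pos2_base (Sc.mul (Sc.zSnd m r) (Sc.mul (Sc.es 1) (Sc.es _))) (by omega)
  · rw [mem_range] at hj
    exact pos2_base (Sc.mul (Sc.zMid m r j) (Sc.mul (Sc.es _) (Sc.es _))) (by omega)

theorem twice_even (m r : ℕ) :
    Twice (2 * m + 4 + r) fun N => evenGen (qR N) (xR N) m r := by
  refine ⟨_, ?_, fun N => K_even _ (gen_qR N) m r⟩
  have h := pos2_add (pos2_add (pos2_gen (.even (m + 1) r))
    (show _ ∈ Pos2 (2 * (m + 1) + 4 + r) by
      rw [show 2 * (m + 1) + 4 + r = 2 * m + 6 + r by omega]; exact eSum_pos m r))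
    (show _ ∈ Pos2 (2 * (m + 1) + 4 + r) by
      rw [show 2 * (m + 1) + 4 + r = 2 * m + 6 + r by omega]; exact zBase_pos m r)
  rwa [show 2 * m + 4 + r + 2 = 2 * (m + 1) + 4 + r by omega]

theorem one_add_q_ne (N : ℕ) : 1 + qR N ≠ 0 := by
  intro h
  have h' : (1 : Polynomial ℤ) + Polynomial.X = 0 :=
    MvPolynomial.C_injective (Fin N) (Polynomial ℤ) (by simpa [qR] using h)
  simpa using congrArg (Polynomial.eval 0) h'

theorem twice_pos {n : ℕ} {f : ∀ N, Fin N × Fin N → Rg N} (h : Twice n f) :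
    (fun N => opK (qR N) (xR N) (f N)) ∈ Pos2 (n + 2) := by
  obtain ⟨G, hG, e⟩ := h
  simp only [e]
  exact pos2_smul Sc.one_add_q hG (by omega)

theorem twice_C {n : ℕ} {f g : ∀ N, Fin N × Fin N → Rg N}
    (hg : ∀ N, opT (qR N) (f N) + qR N • f N = g N) (h : Twice n g) :
    (fun N => opK (qR N) (xR N) (f N)) ∈ Pos2 (n + 2) := by
  obtain ⟨G, hG, e⟩ := h
  have k : ∀ N, opK (qR N) (xR N) (f N) = G N := fun N => funext fun p => by
    refine mul_left_cancel₀ (one_add_q_ne N) ?_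
    have := congrFun (((K_C (qR N) (xR N) (f N)).symm.trans (by rw [hg N])).trans (e N)) p
    simpa using this
  simp only [k]; exact hG

theorem K_gen {n : ℕ} {f : ∀ N, Fin N × Fin N → Rg N} (hf : IsGen n f) :
    (fun N => opK (qR N) (xR N) (f N)) ∈ Pos2 (n + 2) := by
  cases hf with
  | pendant a =>
    rcases a with _ | _ | a
    · simpa only [uv_zero, mv_zero] using twice_pos (twice_mv 0)
    · refine twice_C (g := fun N => mv (qR N) (xR N) 1
        + (qR N * es (xR N) 1) • mv (qR N) (xR N) 0) (fun N => ?_) ?_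
      · rw [C_uv, mv_zero]
        linear_combination (norm := module) aux_one _ (gen_qR N)
      · exact Twice.add (twice_mv 1) (Twice.smul (Sc.mul Sc.q (Sc.es 1)) (twice_mv 0) (by omega))
    · refine twice_C (g := fun N => evenGen (qR N) (xR N) 0 a)
        (fun N => by rw [C_uv, evenGen_zero _ (gen_qR N)]) ?_
      have h := twice_even 0 a
      rwa [show a + 1 + 1 + 2 = 2 * 0 + 4 + a by omega]
  | clique a => exact twice_pos (twice_mv a)
  | even m r => exact twice_pos (twice_even m r)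
  | odd m r =>
    rcases r with _ | r
    · refine twice_C (fun N => C_odd_zero _ (gen_qR N) m) (Twice.add (Twice.add ?_ ?_)
        (Twice.smul Sc.q (twice_even m 1) (by omega)))
      · exact Twice.sum _ _ fun i hi => Twice.smul (Sc.mul (Sc.qpow _) (Sc.es i)) (twice_mv _)
          (by rw [mem_range] at hi; omega)
      · exact Twice.sum _ _ fun j hj => Twice.smul (Sc.mul (Sc.qpow _) (Sc.es _)) (twice_mv _)
          (by rw [mem_range] at hj; omega)
    · refine twice_C (fun N => C_odd_succ _ (gen_qR N) m r) (Twice.add ?_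
        (Twice.smul Sc.q (twice_even m (r + 2)) (by omega)))
      have h := twice_even (m + 1) r
      rwa [show 2 * m + 5 + (r + 1) = 2 * (m + 1) + 4 + r by omega]

theorem K_pos {n : ℕ} {g : ∀ N, Fin N × Fin N → Rg N} (hg : g ∈ Pos2 n) :
    (fun N => opK (qR N) (xR N) (g N)) ∈ Pos2 (n + 2) := by
  refine map_closure_pos (fun N => opK (qR N) (xR N)) ?_ hg
  rintro f ⟨k, a, s, f', hs, hf, hn, rfl⟩
  simp only [map_smul]
  exact pos2_smul hs (K_gen hf) (by omega)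

end Vale.Agent.P066.Window
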