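import Vale.Agent.P066.Window.States

/-!
The two families of generators and the closure identities.
-/

namespace Vale.Agent.P066.Window

open Finset

variable {N : ℕ} {R : Type*} [CommRing R] [IsDomain R] (q : R) (x : Fin N → R)

/-- The expansion of a product of two one-vertex states. -/
def prodSum (a c : ℕ) : Fin N → R :=
  (∑ i ∈ range (c + 1), es x i • bv q x (a + c - i))
    - ∑ j ∈ range c, es x (a + c - j) • bv q x j

theorem N1_bv (a c : ℕ) : opN1 q x a (bv q x c) = prodSum q x a c := by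
  induction c generalizing a with
  | zero => simp [prodSum, bv, N1_x, es_zero]
  | succ c ih =>
    have h1 : opN1 q x a (bv q x (c + 1))
        = es x (c + 1) • bv q x a - es x (a + 1) • bv q x c
          + opN1 q x (a + 1) (bv q x c) := by
      rw [bv, map_sub, map_smul, N1_x, opN1_succ, N1_Y]
      module
    rw [h1, ih (a + 1), prodSum, prodSum, show a + 1 + c = a + (c + 1) by omega,
      sum_range_succ (fun i => es x i • bv q x (a + (c + 1) - i)) (c + 1),
      sum_range_succ (fun j => es x (a + (c + 1) - j) • bv q x j) c,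
      show a + (c + 1) - (c + 1) = a by omega, show a + (c + 1) - c = a + 1 by omega]
    abel

/-- The antisymmetrised product; it is symmetric. -/
def kv (a c : ℕ) : Fin N × Fin N → R := mm q x (a + 1) c - mm q x a (c + 1)

variable {q}

theorem T_kv (hq : Gen q) (a c : ℕ) : opT q (kv q x a c) = kv q x a c := by
  rw [kv, map_sub, T_mm x hq, T_mm x hq]

theorem kv_eq_N (hq : Gen q) (a c : ℕ) :
    kv q x a c = opN q x (a + 1) (mv q x c) - opN q x (c + 1) (mv q x a) := by
  rw [N_eq_M x hq, N_eq_M x hq, kv, ← mm, ← mm, ← mm, ← mm, mm_comm x hq a (c + 1),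
    mm_comm x hq a c]
  abel

theorem D_kv (hq : Gen q) (a c : ℕ) :
    opD (kv q x a c) = (gq q (c + 1) - gq q (a + 1)) • prodSum q x (a + 1) (c + 1) := by
  have h : opN1 q x (c + 1) (bv q x (a + 1)) = opN1 q x (a + 1) (bv q x (c + 1)) := by
    rw [← N1_x x (a + 1), ← N1_x x (c + 1), N1_comm]
  rw [kv_eq_N x hq, map_sub, D_N, D_N, D_mv x hq, D_mv x hq, map_smul, map_smul, h, N1_bv]
  module

theorem kv_step (hq : Gen q) (a c : ℕ) :
    es x (a + 2) • mv q x (c + 1) + opP (q := q) x (kv q x a c)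
      = es x (c + 2) • mv q x (a + 1) + kv q x (a + 1) (c + 1) := by
  have h1 : ∀ u v : ℕ, es x (u + 2) • mv q x v = mm q x (u + 2) v
      + opS (q := q) x (mm q x (u + 1) v) + opP (q := q) x (mm q x u v) := by
    intro u v; exact opM_succ_succ q x u _
  rw [h1, h1, kv, kv, map_sub, mm_comm x hq (c + 2) (a + 1), mm_comm x hq (c + 1) (a + 1),
    mm_comm x hq c (a + 1)]
  abel

variable (q)

/-- Low terms of the even generator. -/
def lowE (m r : ℕ) (i : ℕ) : Fin N × Fin N → R :=
  (q ^ i * es x i) • mv q x (2 * m + 2 + r - i)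

/-- High terms of the even generator. -/
def highE (m r : ℕ) (j : ℕ) : Fin N × Fin N → R :=
  (q ^ (2 * m + 1 - j) * es x (2 * m + 2 + r - j)) • mv q x j

/-- Even generator of degree `2 * m + 2 + r`. -/
def evenGen (m r : ℕ) : Fin N × Fin N → R :=
  (∑ i ∈ range (m + 2), lowE q x m r i) + (∑ j ∈ range m, highE q x m r j)
    + q ^ (m + 1) • kv q x (m + 1 + r) m

/-- Its image in one variable. -/
def dEven (m r : ℕ) : Fin N → R :=
  (∑ i ∈ range (m + 2), (q ^ i * gq q (2 * m + 2 - i) * es x i) • bv q x (2 * m + 3 + r - i))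
    + ∑ j ∈ range (m + 1),
        (q ^ (2 * m + 2 - j) * gq q (1 + r + j) * es x (2 * m + 3 + r - j)) • bv q x j

/-- The part carried into the odd generator. -/
def carryE (m r : ℕ) : Fin N → R :=
  (∑ i ∈ range (m + 2), (q ^ i * es x i) • bv q x (2 * m + 3 + r - i))
    + ∑ j ∈ range (m + 1), (q ^ (2 * m + 2 - j) * es x (2 * m + 3 + r - j)) • bv q x j

/-- The reset part after an even generator. -/
def restE (m r : ℕ) : Fin N → R :=
  (∑ i ∈ range (m + 2),
      (q ^ (i + 1) * gq q (2 * m + 1 - i) * es x i) • bv q x (2 * m + 3 + r - i))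
    + ∑ j ∈ range (m + 1),
        (q ^ (2 * m + 3 - j) * gq q (r + j) * es x (2 * m + 3 + r - j)) • bv q x j

/-- Odd generator of degree `2 * m + 3 + r`. -/
def oddGen (m r : ℕ) : Fin N × Fin N → R :=
  opU q x (carryE q x m r) - q • opY1 q x (evenGen q x m r)

/-- Its image in one variable. -/
def dOdd (m r : ℕ) : Fin N → R :=
  (∑ i ∈ range (m + 2), (q ^ i * gq q (2 * m + 3 - i) * es x i) • bv q x (2 * m + 4 + r - i))
    + (∑ j ∈ range (m + 1),
        (q ^ (2 * m + 2 - j) * gq q (2 + r + j) * es x (2 * m + 3 + r - j)) • bv q x (j + 1))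
    + (q ^ (2 * m + 3) * gq q (r + 1) * es x (2 * m + 4 + r)) • x

/-- The part carried into the next even generator. -/
def carryO (m r : ℕ) : Fin N → R :=
  (∑ i ∈ range (m + 2), (q ^ i * es x i) • bv q x (2 * m + 4 + r - i))
    + (∑ j ∈ range (m + 1), (q ^ (2 * m + 2 - j) * es x (2 * m + 3 + r - j)) • bv q x (j + 1))
    + (q ^ (2 * m + 3) * es x (2 * m + 4 + r)) • x

/-- The reset part after an odd generator. -/
def restO (m r : ℕ) : Fin N → R :=
  (∑ i ∈ range (m + 2),
      (q ^ (i + 1) * gq q (2 * m + 2 - i) * es x i) • bv q x (2 * m + 4 + r - i))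
    + (∑ j ∈ range (m + 1),
        (q ^ (2 * m + 3 - j) * gq q (1 + r + j) * es x (2 * m + 3 + r - j)) • bv q x (j + 1))
    + (q ^ (2 * m + 4) * gq q r * es x (2 * m + 4 + r)) • x

theorem dEven_split (m r : ℕ) : dEven q x m r = carryE q x m r + restE q x m r := by
  simp only [dEven, carryE, restE]
  rw [add_add_add_comm, ← sum_add_distrib, ← sum_add_distrib]
  congr 1 <;> refine sum_congr rfl fun i hi => ?_ <;> rw [mem_range] at hi <;> rw [← add_smul]
  · rw [show 2 * m + 2 - i = 2 * m + 1 - i + 1 by omega, gq_succ]; congr 1; ring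
  · rw [show 1 + r + i = r + i + 1 by omega, gq_succ,
      show 2 * m + 3 - i = 2 * m + 2 - i + 1 by omega]
    congr 1; ring

theorem dOdd_split (m r : ℕ) : dOdd q x m r = carryO q x m r + restO q x m r := by
  simp only [dOdd, carryO, restO]
  rw [add_add_add_comm _ _ _ ((q ^ (2 * m + 4) * _ * _) • x), add_add_add_comm _ _ _ (∑ j ∈ _, _),
    ← sum_add_distrib, ← sum_add_distrib, ← add_smul]
  congr 1
  · congr 1 <;> refine sum_congr rfl fun i hi => ?_ <;> rw [mem_range] at hi <;> rw [← add_smul]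
    · rw [show 2 * m + 3 - i = 2 * m + 2 - i + 1 by omega, gq_succ]; congr 1; ring
    · rw [show 2 + r + i = 1 + r + i + 1 by omega, gq_succ,
        show 2 * m + 3 - i = 2 * m + 2 - i + 1 by omega]
      congr 1; ring
  · rw [gq_succ, show 2 * m + 4 = 2 * m + 3 + 1 by omega]; congr 1; ring

variable {q}

theorem T_evenGen (hq : Gen q) (m r : ℕ) : opT q (evenGen q x m r) = evenGen q x m r := by
  simp only [evenGen, lowE, highE, map_add, map_sum, map_smul, T_mv x hq, T_kv x hq]

theorem D_evenGen (hq : Gen q) (m r : ℕ) : opD (evenGen q x m r) = dEven q x m r := by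
  simp only [evenGen, lowE, highE, map_add, map_sum, map_smul, D_mv x hq, D_kv x hq, smul_smul]
  simp only [prodSum, smul_sub, smul_sum, smul_smul, dEven]
  rw [show m + 1 + r + 1 + (m + 1) = 2 * m + 3 + r by omega,
    sum_range_succ' _ m, sum_range_succ' _ m]
  have hL : ∀ i ∈ range (m + 2),
      (q ^ i * es x i * gq q (2 * m + 2 + r - i + 1)) • bv q x (2 * m + 2 + r - i + 1)
        + (q ^ (m + 1) * (gq q (m + 1) - gq q (m + 1 + r + 1)) * es x i) •
            bv q x (2 * m + 3 + r - i)
      = (q ^ i * gq q (2 * m + 2 - i) * es x i) • bv q x (2 * m + 3 + r - i) := by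
    intro i hi
    rw [mem_range] at hi
    obtain ⟨k, hk⟩ := Nat.le.dest (show i ≤ m + 1 by omega)
    rw [show 2 * m + 2 + r - i + 1 = k + (m + 1 + r + 1) by omega,
      show 2 * m + 3 + r - i = k + (m + 1 + r + 1) by omega,
      show 2 * m + 2 - i = k + (m + 1) by omega, gq_add q k (m + 1 + r + 1), gq_add q k (m + 1),
      ← hk, ← add_smul]
    congr 1; ring
  have hH : ∀ j ∈ range m,
      (q ^ (2 * m + 1 - j) * es x (2 * m + 2 + r - j) * gq q (j + 1)) • bv q x (j + 1)
        - (q ^ (m + 1) * (gq q (m + 1) - gq q (m + 1 + r + 1)) * es x (2 * m + 3 + r - (j + 1))) •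
            bv q x (j + 1)
      = (q ^ (2 * m + 2 - (j + 1)) * gq q (1 + r + (j + 1)) * es x (2 * m + 3 + r - (j + 1))) •
            bv q x (j + 1) := by
    intro j hj
    rw [mem_range] at hj
    obtain ⟨k, hk⟩ := Nat.le.dest (show j + 1 ≤ m by omega)
    rw [show 2 * m + 2 + r - j = 2 * m + 3 + r - (j + 1) by omega,
      show 2 * m + 1 - j = m + 1 + k + 1 by omega, show 2 * m + 2 - (j + 1) = m + 1 + k + 1 by omega,
      show m + 1 + r + 1 = (m + 1) + (r + 1) by omega,
      show 1 + r + (j + 1) = (j + 1) + (r + 1) by omega, gq_add q (m + 1) (r + 1),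
      gq_add q (j + 1) (r + 1), ← sub_smul]
    congr 1
    rw [show q ^ (m + 1) = q ^ (j + 1) * q ^ (k + 1) by rw [← pow_add]; congr 1; omega]
    rw [show q ^ (m + 1 + k + 1) = q ^ (j + 1) * q ^ (k + 1) * q ^ (k + 1) by
      rw [← pow_add, ← pow_add]; congr 1; omega]
    ring
  have h0 : - ((q ^ (m + 1) * (gq q (m + 1) - gq q (m + 1 + r + 1)) * es x (2 * m + 3 + r - 0)) •
      bv q x 0) = (q ^ (2 * m + 2 - 0) * gq q (1 + r + 0) * es x (2 * m + 3 + r - 0)) •
      bv q x 0 := by
    rw [show m + 1 + r + 1 = (m + 1) + (1 + r + 0) by omega, gq_add q (m + 1) (1 + r + 0),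
      ← neg_smul,
      show 2 * m + 2 - 0 = (m + 1) + (m + 1) by omega, pow_add]
    congr 1; ring
  rw [← sum_congr rfl hL, ← sum_congr rfl hH, ← h0, sum_add_distrib, sum_sub_distrib]
  abel

theorem DU_evenGen (hq : Gen q) (m r : ℕ) :
    opDU q x (evenGen q x m r) = oddGen q x m r + opU q x (restE q x m r) := by
  rw [DU_apply, D_evenGen x hq, dEven_split, map_add, oddGen,
    W_sym x _ (T_evenGen x hq m r)]
  abel

theorem D_oddGen (hq : Gen q) (m r : ℕ) : opD (oddGen q x m r) = dOdd q x m r := by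
  have hb : ∀ a, opD (opU q x (bv q x a))
      = bv q x (a + 1) + (q * gq q a * es x (a + 1)) • x := fun a => D_uv x hq a
  rw [oddGen, map_sub, map_smul, D_Y1, D_evenGen x hq]
  simp only [carryE, dEven, map_add, map_sum, hb, map_smul, Y_bv, smul_sub, smul_add, smul_sum,
    smul_smul, sum_add_distrib, sum_sub_distrib, ← sum_smul, dOdd]
  have hi : ∀ i ∈ range (m + 2),
      q ^ i * es x i * (q * gq q (2 * m + 3 + r - i) * es x (2 * m + 3 + r - i + 1))
        - q * (q ^ i * gq q (2 * m + 2 - i) * es x i) * es x (2 * m + 3 + r - i + 1)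
      = q ^ (2 * m + 3) * gq q (r + 1) * (es x i * es x (2 * m + 4 + r - i)) := by
    intro i hi
    rw [mem_range] at hi
    rw [show 2 * m + 3 + r - i = (2 * m + 2 - i) + (r + 1) by omega,
      gq_add q (2 * m + 2 - i) (r + 1),
      show 2 * m + 2 - i + (r + 1) + 1 = 2 * m + 4 + r - i by omega,
      show q ^ (2 * m + 3) = q ^ i * (q * q ^ (2 * m + 2 - i)) by
        rw [← pow_succ', ← pow_add]; congr 1; omega]
    ring
  have hj : ∀ j ∈ range (m + 1),
      q ^ (2 * m + 2 - j) * es x (2 * m + 3 + r - j) * (q * gq q j * es x (j + 1))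
        - q * (q ^ (2 * m + 2 - j) * gq q (1 + r + j) * es x (2 * m + 3 + r - j)) * es x (j + 1)
      = - (q ^ (2 * m + 3) * gq q (r + 1) * (es x (j + 1) * es x (2 * m + 4 + r - (j + 1)))) := by
    intro j hj
    rw [mem_range] at hj
    rw [show 1 + r + j = j + (r + 1) by omega, gq_add q j (r + 1),
      show 2 * m + 4 + r - (j + 1) = 2 * m + 3 + r - j by omega,
      show q ^ (2 * m + 3) = q ^ (2 * m + 2 - j) * (q * q ^ j) by
        rw [← pow_succ', ← pow_add]; congr 1; omega]
    ring
  have hx : (∑ i ∈ range (m + 2),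
        q ^ i * es x i * (q * gq q (2 * m + 3 + r - i) * es x (2 * m + 3 + r - i + 1)))
      - (∑ i ∈ range (m + 2),
          q * (q ^ i * gq q (2 * m + 2 - i) * es x i) * es x (2 * m + 3 + r - i + 1))
      + ((∑ j ∈ range (m + 1),
          q ^ (2 * m + 2 - j) * es x (2 * m + 3 + r - j) * (q * gq q j * es x (j + 1)))
        - ∑ j ∈ range (m + 1),
          q * (q ^ (2 * m + 2 - j) * gq q (1 + r + j) * es x (2 * m + 3 + r - j)) * es x (j + 1))
      = q ^ (2 * m + 3) * gq q (r + 1) * es x (2 * m + 4 + r) := by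
    rw [← sum_sub_distrib, ← sum_sub_distrib, sum_congr rfl hi, sum_congr rfl hj,
      sum_range_succ', sum_neg_distrib]
    simp [es_zero]
  have hb1 : ∀ i ∈ range (m + 2),
      (q ^ i * gq q (2 * m + 3 - i) * es x i) • bv q x (2 * m + 4 + r - i)
      = (q ^ i * es x i) • bv q x (2 * m + 3 + r - i + 1)
        + (q * (q ^ i * gq q (2 * m + 2 - i) * es x i)) • bv q x (2 * m + 3 + r - i + 1) := by
    intro i hi
    rw [mem_range] at hi
    rw [show 2 * m + 3 - i = 2 * m + 2 - i + 1 by omega, gq_succ,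
      show 2 * m + 3 + r - i + 1 = 2 * m + 4 + r - i by omega, ← add_smul]
    congr 1; ring
  have hb2 : ∀ j ∈ range (m + 1),
      (q ^ (2 * m + 2 - j) * gq q (2 + r + j) * es x (2 * m + 3 + r - j)) • bv q x (j + 1)
      = (q ^ (2 * m + 2 - j) * es x (2 * m + 3 + r - j)) • bv q x (j + 1)
        + (q * (q ^ (2 * m + 2 - j) * gq q (1 + r + j) * es x (2 * m + 3 + r - j))) •
            bv q x (j + 1) := by
    intro j _
    rw [show 2 + r + j = 1 + r + j + 1 by omega, gq_succ, ← add_smul]
    congr 1; ring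
  rw [sum_congr rfl hb1, sum_congr rfl hb2, ← hx, sum_add_distrib, sum_add_distrib]
  simp only [mul_assoc, mul_sum]
  module

theorem DU_oddGen (hq : Gen q) (m r : ℕ) :
    opDU q x (oddGen q x m r) = evenGen q x (m + 1) r + opU q x (restO q x m r) := by
  have hW : ∀ (c : R) a, opW q x (opU q x (c • bv q x a))
      = c • (q • (es x (a + 1) • base2 q x - nv q x (a + 1))) := by
    intro c a; rw [map_smul, map_smul, ← uv, W_uv]
  rw [DU_apply, D_oddGen x hq, dOdd_split, map_add]
  suffices h : opU q x (carryO q x m r) - opW q x (oddGen q x m r) = evenGen q x (m + 1) r by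
    rw [← h]; abel
  rw [oddGen, map_sub, map_smul, W_Y1_sym x hq _ (T_evenGen x hq m r)]
  have hi : ∀ i ∈ range (m + 2),
      (q ^ i * es x i) • uv q x (2 * m + 4 + r - i)
        - (q ^ i * es x i) • (q • (es x (2 * m + 3 + r - i + 1) • base2 q x
            - nv q x (2 * m + 3 + r - i + 1)))
        + q • opP (q := q) x (lowE q x m r i)
      = lowE q x (m + 1) r i := by
    intro i hi
    rw [mem_range] at hi
    obtain ⟨a, ha⟩ := Nat.le.dest (show i + 2 ≤ 2 * m + 4 + r by omega)
    rw [show 2 * m + 4 + r - i = a + 2 by omega, show 2 * m + 3 + r - i + 1 = a + 2 by omega,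
      lowE, lowE, show 2 * m + 2 + r - i = a by omega,
      show 2 * (m + 1) + 2 + r - i = a + 2 by omega, map_smul]
    linear_combination (norm := module) (q ^ i * es x i) • aux_succ x hq a
  have hj : ∀ j ∈ range m,
      (q ^ (2 * m + 2 - (j + 1)) * es x (2 * m + 3 + r - (j + 1))) • uv q x (j + 1 + 1)
        - (q ^ (2 * m + 2 - (j + 1)) * es x (2 * m + 3 + r - (j + 1))) •
            (q • (es x (j + 1 + 1) • base2 q x - nv q x (j + 1 + 1)))
        + q • opP (q := q) x (highE q x m r j)
      = highE q x (m + 1) r (j + 2) := by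
    intro j hj
    rw [mem_range] at hj
    rw [highE, highE, show 2 * m + 2 - (j + 1) = 2 * m + 1 - j by omega,
      show 2 * (m + 1) + 1 - (j + 2) = 2 * m + 1 - j by omega,
      show 2 * m + 3 + r - (j + 1) = 2 * m + 2 + r - j by omega,
      show 2 * (m + 1) + 2 + r - (j + 2) = 2 * m + 2 + r - j by omega, map_smul]
    linear_combination (norm := module)
      (q ^ (2 * m + 1 - j) * es x (2 * m + 2 + r - j)) • aux_succ x hq j
  have h1 : (q ^ (2 * m + 2 - 0) * es x (2 * m + 3 + r - 0)) • uv q x (0 + 1)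
        - (q ^ (2 * m + 2 - 0) * es x (2 * m + 3 + r - 0)) •
            (q • (es x (0 + 1) • base2 q x - nv q x (0 + 1)))
      = highE q x (m + 1) r 1 := by
    rw [highE, show 2 * (m + 1) + 1 - 1 = 2 * m + 2 - 0 by omega,
      show 2 * (m + 1) + 2 + r - 1 = 2 * m + 3 + r - 0 by omega, zero_add]
    linear_combination (norm := module)
      (q ^ (2 * m + 2 - 0) * es x (2 * m + 3 + r - 0)) • aux_one x hq
  have h0 : (q ^ (2 * m + 3) * es x (2 * m + 4 + r)) • base2 q x = highE q x (m + 1) r 0 := by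
    rw [highE, mv_zero, show 2 * (m + 1) + 1 - 0 = 2 * m + 3 by omega,
      show 2 * (m + 1) + 2 + r - 0 = 2 * m + 4 + r by omega]
  have hK : highE q x (m + 1) r (m + 1) + q • q ^ (m + 1) • opP (q := q) x (kv q x (m + 1 + r) m)
      = lowE q x (m + 1) r (m + 2) + q ^ (m + 2) • kv q x (m + 2 + r) (m + 1) := by
    rw [highE, lowE, show 2 * (m + 1) + 1 - (m + 1) = m + 2 by omega,
      show 2 * (m + 1) + 2 + r - (m + 1) = m + 1 + r + 2 by omega,
      show 2 * (m + 1) + 2 + r - (m + 2) = m + 1 + r + 1 by omega,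
      show m + 2 + r = m + 1 + r + 1 by omega]
    linear_combination (norm := module) q ^ (m + 2) • kv_step x hq (m + 1 + r) m
  have hsum : (∑ j ∈ range m, highE q x (m + 1) r (j + 2)) + highE q x (m + 1) r 1
      + highE q x (m + 1) r 0
      = (∑ j ∈ range (m + 1), highE q x (m + 1) r j) + highE q x (m + 1) r (m + 1) := by
    rw [← sum_range_succ _ (m + 1), sum_range_succ' _ (m + 1), sum_range_succ' _ m]
  have hU : ∀ a, opU q x (bv q x a) = uv q x a := fun a => rfl
  simp only [carryE, carryO, evenGen, map_add, map_sum, map_smul, opU_x, hU, W_uv, smul_add,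
    smul_sum]
  rw [sum_range_succ' _ m, sum_range_succ' _ m, sum_range_succ _ (m + 2)]
  have A := sum_congr rfl hi
  have B := sum_congr rfl hj
  rw [sum_add_distrib, sum_sub_distrib] at A B
  linear_combination (norm := module) A + B + h1 + h0 + hsum + hK

theorem evenGen_zero (hq : Gen q) (r : ℕ) :
    evenGen q x 0 r = uv q x (r + 2) + q • nv q x (r + 2) := by
  have hm : ∀ a, mm q x a 0 = mv q x a := fun a => rfl
  have h1 : mm q x (r + 1) 1 + opS (q := q) x (mm q x (r + 1) 0) = es x 1 • mv q x (r + 1) := by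
    rw [mm_comm x hq (r + 1) 1, hm]
    exact (opM_one q x _).symm
  rw [uv_succ x hq, nv_succ x hq, evenGen, sum_range_succ, sum_range_succ, sum_range_zero,
    sum_range_zero, lowE, lowE, show 2 * 0 + 2 + r - 0 = r + 2 by omega,
    show 2 * 0 + 2 + r - 1 = r + 1 by omega, show 0 + 1 + r = r + 1 by omega, es_zero, kv,
    hm (r + 1 + 1)]
  rw [hm (r + 1), opS_apply] at h1
  linear_combination (norm := module) (-q) • h1

end Vale.Agent.P066.Window
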