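import Mathlib

/-!
Transfer maps on functions of the colours of the last one or two vertices.
-/

namespace Vale.Agent.P066.Window

open Finset

variable {N : ℕ} {R : Type*} [CommRing R]

/-- `q` if `a < b`, otherwise `1`. -/
def qi (q : R) (a b : Fin N) : R := if a < b then q else 1

variable (q : R) (x : Fin N → R)

/-- The Hecke swap. -/
def opT : Module.End R (Fin N × Fin N → R) where
  toFun F p := if p.1 < p.2 then q * F (p.2, p.1)
    else if p.2 < p.1 then F (p.2, p.1) + (1 - q) * F p else F p
  map_add' F G := by
    funext p; simp only [Pi.add_apply]; split_ifs <;> ring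
  map_smul' c F := by
    funext p; simp only [Pi.smul_apply, smul_eq_mul, RingHom.id_apply]; split_ifs <;> ring

/-- `UD - DU`. -/
def opW : Module.End R (Fin N × Fin N → R) where
  toFun F p := if p.1 = p.2 then 0 else qi q p.1 p.2 * x p.2 *
    (F (p.2, p.1) + (1 - q) * ∑ a, if a < p.2 ∧ a ≠ p.1 then F (a, p.1) else 0)
  map_add' F G := by
    funext p; simp only [Pi.add_apply, ite_add_zero, sum_add_distrib]; split_ifs <;> ring
  map_smul' c F := by
    funext p
    simp only [Pi.smul_apply, smul_eq_mul, RingHom.id_apply, ← mul_ite_zero, ← mul_sum]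
    split_ifs <;> ring

/-- Multiplication by the variable of the newest vertex. -/
def opY1 : Module.End R (Fin N × Fin N → R) where
  toFun F p := if p.2 < p.1 then
      x p.2 * (F p + (1 - q) * ∑ c, if c < p.2 then F (p.1, c) else 0)
    else if p.1 < p.2 then
      x p.2 * (F p + (1 - q) * F (p.2, p.1)
        + (1 - q) * (q * (∑ c, if c < p.1 then F (p.1, c) else 0)
          + ((∑ c, if p.1 < c ∧ c < p.2 then F (p.1, c) else 0)
            + (1 - q) * ∑ c, if p.1 < c ∧ c < p.2 then F (c, p.1) else 0)))
    else 0
  map_add' F G := by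
    funext p; simp only [Pi.add_apply, ite_add_zero, sum_add_distrib]; split_ifs <;> ring
  map_smul' c F := by
    funext p
    simp only [Pi.smul_apply, smul_eq_mul, RingHom.id_apply, ← mul_ite_zero, ← mul_sum]
    split_ifs <;> ring

/-- Multiplication by the variable of the older vertex. -/
def opY2 : Module.End R (Fin N × Fin N → R) where
  toFun F p := if p.2 < p.1 then
      x p.1 * (F p + (1 - q) * ∑ c, if c < p.1 ∧ c ≠ p.2 then F (c, p.2) else 0)
    else if p.1 < p.2 then
      x p.1 * (F p + (1 - q) * ∑ c, if c < p.1 ∧ c ≠ p.2 then F (c, p.2) else 0)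
        + (q - 1) * x p.2 *
          (F (p.2, p.1) + (1 - q) * ∑ c, if c < p.2 ∧ c ≠ p.1 then F (c, p.1) else 0)
    else 0
  map_add' F G := by
    funext p; simp only [Pi.add_apply, ite_add_zero, sum_add_distrib]; split_ifs <;> ring
  map_smul' c F := by
    funext p
    simp only [Pi.smul_apply, smul_eq_mul, RingHom.id_apply, ← mul_ite_zero, ← mul_sum]
    split_ifs <;> ring

/-- Multiplication by the variable of the only open vertex. -/
def opY : Module.End R (Fin N → R) where
  toFun g b := x b * (g b + (1 - q) * ∑ a, if a < b then g a else 0)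
  map_add' F G := by
    funext p; simp only [Pi.add_apply, ite_add_zero, sum_add_distrib]; ring
  map_smul' c F := by
    funext p
    simp only [Pi.smul_apply, smul_eq_mul, RingHom.id_apply, ← mul_ite_zero, ← mul_sum]
    ring

/-- Forget the older vertex. -/
def opD : (Fin N × Fin N → R) →ₗ[R] (Fin N → R) where
  toFun F b := ∑ a, if a ≠ b then F (a, b) else 0
  map_add' F G := by
    funext p; simp only [Pi.add_apply, ite_add_zero, sum_add_distrib]
  map_smul' c F := by
    funext p
    simp only [Pi.smul_apply, smul_eq_mul, RingHom.id_apply, ← mul_ite_zero, ← mul_sum]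

/-- A new vertex adjacent to the open one. -/
def opU : (Fin N → R) →ₗ[R] (Fin N × Fin N → R) where
  toFun g p := if p.1 ≠ p.2 then qi q p.1 p.2 * x p.2 * g p.1 else 0
  map_add' F G := by
    funext p; simp only [Pi.add_apply]; split_ifs <;> ring
  map_smul' c F := by
    funext p; simp only [Pi.smul_apply, smul_eq_mul, RingHom.id_apply]; split_ifs <;> ring

/-- The inverse swap of `opU`. -/
def opI : (Fin N → R) →ₗ[R] (Fin N × Fin N → R) where
  toFun g p := if p.1 < p.2 then x p.1 * g p.2 + (q - 1) * x p.2 * g p.1
    else if p.2 < p.1 then x p.1 * g p.2 else 0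
  map_add' F G := by
    funext p; simp only [Pi.add_apply]; split_ifs <;> ring
  map_smul' c F := by
    funext p; simp only [Pi.smul_apply, smul_eq_mul, RingHom.id_apply]; split_ifs <;> ring

/-- A new vertex adjacent to both open ones; the older one closes. -/
def opDU : Module.End R (Fin N × Fin N → R) where
  toFun F p := if p.1 ≠ p.2 then qi q p.1 p.2 * x p.2 *
    (∑ a, if a ≠ p.1 ∧ a ≠ p.2 then qi q a p.2 * F (a, p.1) else 0) else 0
  map_add' F G := by
    funext p
    simp only [Pi.add_apply, mul_add, ite_add_zero, sum_add_distrib]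
  map_smul' c F := by
    funext p
    simp only [Pi.smul_apply, smul_eq_mul, RingHom.id_apply, mul_left_comm _ c, ← mul_ite_zero,
      ← mul_sum]

/-- Total over the colour of the open vertex. -/
def tot : (Fin N → R) →ₗ[R] R where
  toFun g := ∑ a, g a
  map_add' F G := by simp only [Pi.add_apply, sum_add_distrib]
  map_smul' c F := by simp only [Pi.smul_apply, smul_eq_mul, RingHom.id_apply, ← mul_sum]

/-- The state of two adjacent vertices. -/
def base2 : Fin N × Fin N → R := fun p =>
  if p.1 ≠ p.2 then qi q p.1 p.2 * x p.1 * x p.2 else 0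

theorem ext_single {M : Type*} [AddCommGroup M] [Module R M]
    (f g : (Fin N × Fin N → R) →ₗ[R] M)
    (h : ∀ a b, f (Pi.single (a, b) 1) = g (Pi.single (a, b) 1)) : f = g := by
  apply LinearMap.pi_ext
  intro i c
  have hs : (Pi.single i c : Fin N × Fin N → R) = c • Pi.single i 1 := by
    funext j; by_cases hj : j = i <;> simp [hj]
  rw [hs, map_smul, map_smul, h i.1 i.2]

theorem opT_sq : opT q * opT q = (1 - q) • (opT (N := N) q) + q • (1 : Module.End R _) := by
  refine LinearMap.ext fun F => funext fun p => ?_
  simp only [Module.End.mul_apply, LinearMap.add_apply, LinearMap.smul_apply, Pi.add_apply,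
    Pi.smul_apply, Module.End.one_apply, smul_eq_mul, opT, LinearMap.coe_mk, AddHom.coe_mk]
  rcases lt_trichotomy p.1 p.2 with h | h | h
  · simp [h, h.not_gt]; ring
  · simp [h]; ring
  · simp [h, h.not_gt]; ring

theorem opT_base2 : opT q (base2 q x) = base2 q x := by
  funext p
  simp only [opT, base2, qi, LinearMap.coe_mk, AddHom.coe_mk]
  rcases lt_trichotomy p.1 p.2 with h | h | h
  · simp [h, h.not_gt, h.ne, h.ne']; ring
  · simp [h]
  · simp [h, h.not_gt, h.ne, h.ne']; ring

theorem opT_opI (g : Fin N → R) : opT q (opI q x g) = opU q x g := by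
  funext p
  simp only [opT, opI, opU, qi, LinearMap.coe_mk, AddHom.coe_mk]
  rcases lt_trichotomy p.1 p.2 with h | h | h
  · simp [h, h.not_gt, h.ne]; ring
  · simp [h]
  · simp [h, h.not_gt, h.ne']; ring

theorem opI_x : opI q x x = base2 q x := by
  funext p
  simp only [opI, base2, qi, LinearMap.coe_mk, AddHom.coe_mk]
  rcases lt_trichotomy p.1 p.2 with h | h | h
  · simp [h, h.ne]; ring
  · simp [h]
  · simp [h, h.not_gt, h.ne']

theorem opU_x : opU q x x = base2 q x := by
  funext p
  simp only [opU, base2, qi, LinearMap.coe_mk, AddHom.coe_mk]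
  split_ifs <;> ring

end Vale.Agent.P066.Window
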