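import Vale.Agent.P066.Window.Ops

/-!
Identities between the transfer maps, all checked on the coordinate basis.
-/

namespace Vale.Agent.P066.Window

open Finset

variable {N : ℕ} {R : Type*} [CommRing R] (q : R) (x : Fin N → R)

theorem sum_pick_left (P : Fin N → Prop) [DecidablePred P] (a b c : Fin N) :
    (∑ t, if P t then (Pi.single (a, b) (1 : R) : Fin N × Fin N → R) (t, c) else 0)
      = if P a ∧ c = b then 1 else 0 := by
  rw [Finset.sum_eq_single a]
  · by_cases hc : c = b <;> simp [Pi.single_apply, hc]
  · intro t _ ht; simp [Pi.single_apply, ht]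
  · simp

theorem sum_pick_right (P : Fin N → Prop) [DecidablePred P] (a b c : Fin N) :
    (∑ t, if P t then (Pi.single (a, b) (1 : R) : Fin N × Fin N → R) (c, t) else 0)
      = if P b ∧ c = a then 1 else 0 := by
  rw [Finset.sum_eq_single b]
  · by_cases hc : c = a <;> simp [Pi.single_apply, hc]
  · intro t _ ht; simp [Pi.single_apply, ht]
  · simp

/-- `opW` at a coordinate vector. -/
theorem opW_single (a b : Fin N) (p : Fin N × Fin N) :
    opW q x (Pi.single (a, b) 1) p = if p.1 = p.2 then 0 else qi q p.1 p.2 * x p.2 *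
      ((if p.2 = a ∧ p.1 = b then 1 else 0)
        + (1 - q) * if (a < p.2 ∧ a ≠ p.1) ∧ p.1 = b then 1 else 0) := by
  simp only [opW, LinearMap.coe_mk, AddHom.coe_mk, sum_pick_left]
  simp [Pi.single_apply]

/-- `opY1` at a coordinate vector. -/
theorem opY1_single (a b : Fin N) (p : Fin N × Fin N) :
    opY1 q x (Pi.single (a, b) 1) p = if p.2 < p.1 then
      x p.2 * ((if p.1 = a ∧ p.2 = b then 1 else 0)
        + (1 - q) * if b < p.2 ∧ p.1 = a then 1 else 0)
    else if p.1 < p.2 then
      x p.2 * ((if p.1 = a ∧ p.2 = b then 1 else 0)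
        + (1 - q) * (if p.2 = a ∧ p.1 = b then 1 else 0)
        + (1 - q) * (q * (if b < p.1 ∧ p.1 = a then 1 else 0)
          + ((if (p.1 < b ∧ b < p.2) ∧ p.1 = a then 1 else 0)
            + (1 - q) * if (p.1 < a ∧ a < p.2) ∧ p.1 = b then 1 else 0)))
    else 0 := by
  simp only [opY1, LinearMap.coe_mk, AddHom.coe_mk, sum_pick_left, sum_pick_right]
  simp [Pi.single_apply, Prod.ext_iff]

/-- `opY2` at a coordinate vector. -/
theorem opY2_single (a b : Fin N) (p : Fin N × Fin N) :
    opY2 q x (Pi.single (a, b) 1) p = if p.2 < p.1 then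
      x p.1 * ((if p.1 = a ∧ p.2 = b then 1 else 0)
        + (1 - q) * if (a < p.1 ∧ a ≠ p.2) ∧ p.2 = b then 1 else 0)
    else if p.1 < p.2 then
      x p.1 * ((if p.1 = a ∧ p.2 = b then 1 else 0)
        + (1 - q) * if (a < p.1 ∧ a ≠ p.2) ∧ p.2 = b then 1 else 0)
        + (q - 1) * x p.2 * ((if p.2 = a ∧ p.1 = b then 1 else 0)
          + (1 - q) * if (a < p.2 ∧ a ≠ p.1) ∧ p.1 = b then 1 else 0)
    else 0 := by
  simp only [opY2, LinearMap.coe_mk, AddHom.coe_mk, sum_pick_left]
  simp [Pi.single_apply, Prod.ext_iff]

theorem opT_opY2 : opT q * opY2 q x = opW q x := by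
  refine ext_single _ _ fun a b => funext fun p => ?_
  rw [Module.End.mul_apply, opW_single]
  simp only [opT, LinearMap.coe_mk, AddHom.coe_mk, opY2_single]
  obtain ⟨s, t⟩ := p
  rcases lt_trichotomy s t with h | h | h
  · simp [h, h.not_gt, h.ne, qi]; split_ifs <;> first | omega | ring
  · simp [h]
  · simp [h, h.not_gt, h.ne', qi]; split_ifs <;> first | omega | ring

theorem opT_single (a b : Fin N) : opT q (Pi.single (a, b) (1 : R))
    = (if a < b then (1 : R) else if b < a then q else 0) • Pi.single (b, a) 1
      + (if b < a then 1 - q else if a = b then 1 else 0) • Pi.single (a, b) 1 := by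
  funext r
  obtain ⟨s, t⟩ := r
  simp only [opT, LinearMap.coe_mk, AddHom.coe_mk, Pi.add_apply, Pi.smul_apply, smul_eq_mul,
    Pi.single_apply, Prod.ext_iff]
  split_ifs <;> first | omega | ring

theorem opW_opT : opW q x * opT q = q • opY1 q x := by
  refine ext_single _ _ fun a b => funext fun p => ?_
  rw [Module.End.mul_apply, LinearMap.smul_apply, Pi.smul_apply, opY1_single, opT_single,
    map_add, map_smul, map_smul, Pi.add_apply, Pi.smul_apply, Pi.smul_apply, opW_single,
    opW_single]
  obtain ⟨s, t⟩ := p
  simp only [smul_eq_mul, qi]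
  rcases lt_trichotomy s t with h | h | h <;> rcases lt_trichotomy a b with g | g | g <;>
    simp only [h, h.not_gt, g, g.not_gt, ne_of_lt, ne_of_gt, lt_irrefl, if_true, if_false,
      one_mul, zero_mul, mul_zero, add_zero, zero_add] <;>
    split_ifs <;> first | omega | ring

/-- Scalar kernel of the square of `opW`. -/
def ker2 (a b s t : Fin N) : R :=
  qi q s t * ((if t = b then 1 else 0) + if b < t then 1 - q else 0)
    * (if b = s then 0 else qi q b s * ((if s = a then 1 else 0)
      + if a < s ∧ a ≠ b then 1 - q else 0))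

set_option maxHeartbeats 4000000 in
theorem opW_opW_single (a b s t : Fin N) :
    opW q x (opW q x (Pi.single (a, b) 1)) (s, t)
      = if s = t then 0 else x s * x t * ker2 q a b s t := by
  have hz : ∀ c d, c ≠ b → opW q x (Pi.single (a, b) 1) (c, d) = 0 := by
    intro c d hc; rw [opW_single]; simp [hc]
  have e : ∀ F : Fin N × Fin N → R, opW q x F (s, t) = if s = t then 0 else qi q s t * x t *
    (F (t, s) + (1 - q) * ∑ c, if c < t ∧ c ≠ s then F (c, s) else 0) := fun F => rfl
  have hs : (∑ c, if c < t ∧ c ≠ s then opW q x (Pi.single (a, b) 1) (c, s) else 0)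
      = if b < t ∧ b ≠ s then opW q x (Pi.single (a, b) 1) (b, s) else 0 := by
    rw [Finset.sum_eq_single b]
    · intro c _ hc; simp [hz c _ hc]
    · simp
  rw [e, hs, opW_single, opW_single]
  simp only [ker2, qi]
  split_ifs <;> first | omega | ring1 | (subst_vars; ring1) | (exfalso; simp_all) | (exfalso; simp_all; omega)

set_option maxHeartbeats 4000000 in
theorem ker2_lt (a b s t : Fin N) (h : s < t) :
    (if a < b then (1 : R) else if b < a then q else 0) * ker2 q b a s t
      + (if b < a then 1 - q else if a = b then 1 else 0) * ker2 q a b s t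
      = q * ker2 q a b t s := by
  simp only [ker2, qi, h, h.not_gt, if_true, if_false, one_mul]
  rcases lt_trichotomy a b with g | g | g <;>
    rcases lt_trichotomy b s with k | k | k <;>
    simp only [g, g.not_gt, k, k.not_gt, ne_of_lt, ne_of_gt, lt_irrefl, if_true, if_false,
      one_mul, zero_mul, mul_zero, add_zero, zero_add] <;>
    split_ifs <;> first | omega | ring1 | (exfalso; simp_all) | (exfalso; simp_all; omega)

set_option maxHeartbeats 4000000 in
theorem ker2_gt (a b s t : Fin N) (h : t < s) :
    (if a < b then (1 : R) else if b < a then q else 0) * ker2 q b a s t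
      + (if b < a then 1 - q else if a = b then 1 else 0) * ker2 q a b s t
      = ker2 q a b t s + (1 - q) * ker2 q a b s t := by
  simp only [ker2, qi, h, h.not_gt, if_true, if_false, one_mul]
  rcases lt_trichotomy a b with g | g | g <;>
    rcases lt_trichotomy b s with k | k | k <;>
    simp only [g, g.not_gt, k, k.not_gt, ne_of_lt, ne_of_gt, lt_irrefl, if_true, if_false,
      one_mul, zero_mul, mul_zero, add_zero, zero_add] <;>
    split_ifs <;> first | omega | ring1 | (exfalso; simp only [true_and, false_and, and_true, and_false, not_true, ne_eq] at *; done) | (exfalso; simp only [true_and, and_true, ne_eq] at *; omega) | (fail)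

theorem opWW_opT : opW q x * (opW q x * opT q) = opT q * (opW q x * opW q x) := by
  refine ext_single _ _ fun a b => funext fun p => ?_
  obtain ⟨s, t⟩ := p
  simp only [Module.End.mul_apply]
  rw [opT_single, map_add, map_smul, map_smul, map_add, map_smul, map_smul, Pi.add_apply,
    Pi.smul_apply, Pi.smul_apply, opW_opW_single, opW_opW_single]
  conv_rhs => rw [opT]; simp only [LinearMap.coe_mk, AddHom.coe_mk]
  rw [opW_opW_single, opW_opW_single]
  simp only [smul_eq_mul]
  rcases lt_trichotomy s t with h | h | h
  · simp only [h, h.ne, h.ne', if_true, if_false]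
    linear_combination (x s * x t) * ker2_lt q a b s t h
  · simp [h]
  · simp only [h, h.not_gt, h.ne, h.ne', if_true, if_false]
    linear_combination (x s * x t) * ker2_gt q a b s t h

end Vale.Agent.P066.Window
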