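import Vale.Agent.P066.Window.Rel

/-!
Further identities between the transfer maps.
-/

namespace Vale.Agent.P066.Window

open Finset

variable {N : ℕ} {R : Type*} [CommRing R] (q : R) (x : Fin N → R)

theorem ext_single1 {M : Type*} [AddCommGroup M] [Module R M]
    (f g : (Fin N → R) →ₗ[R] M)
    (h : ∀ a, f (Pi.single a 1) = g (Pi.single a 1)) : f = g := by
  apply LinearMap.pi_ext
  intro i c
  have hs : (Pi.single i c : Fin N → R) = c • Pi.single i 1 := by
    funext j; by_cases hj : j = i <;> simp [hj]
  rw [hs, map_smul, map_smul, h i]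

theorem sum_pick (P : Fin N → Prop) [DecidablePred P] (a : Fin N) :
    (∑ t, if P t then (Pi.single a (1 : R) : Fin N → R) t else 0) = if P a then 1 else 0 := by
  rw [Finset.sum_eq_single a]
  · simp
  · intro t _ ht; simp [ht]
  · simp

theorem opY_single (a b : Fin N) :
    opY q x (Pi.single a 1) b
      = x b * ((if b = a then 1 else 0) + (1 - q) * if a < b then 1 else 0) := by
  simp only [opY, LinearMap.coe_mk, AddHom.coe_mk]
  rw [sum_pick, Pi.single_apply]

theorem opD_single (a b c : Fin N) :
    opD (Pi.single (a, b) (1 : R)) c = if a ≠ c ∧ c = b then 1 else 0 := by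
  simp only [opD, LinearMap.coe_mk, AddHom.coe_mk]
  rw [sum_pick_left]

theorem opU_single (a : Fin N) (p : Fin N × Fin N) :
    opU q x (Pi.single a 1) p
      = if p.1 ≠ p.2 ∧ p.1 = a then qi q p.1 p.2 * x p.2 else 0 := by
  simp only [opU, LinearMap.coe_mk, AddHom.coe_mk, Pi.single_apply]
  split_ifs <;> simp_all

set_option maxHeartbeats 2000000 in
/-- The older variable commutes past the forgetting map. -/
theorem opD_opY1 : opD ∘ₗ opY1 q x = opY q x ∘ₗ opD (R := R) := by
  refine ext_single _ _ fun a b => funext fun t => ?_
  rw [LinearMap.comp_apply, LinearMap.comp_apply]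
  have hd : opD (Pi.single (a, b) (1 : R)) = if a = b then 0 else Pi.single b 1 := by
    funext c; rw [opD_single]
    by_cases g : a = b <;> by_cases k : c = b <;> simp [g, k, Pi.single_apply]
  rw [hd]
  have hy : ∀ c, opY1 q x (Pi.single (a, b) 1) (c, t)
      = (if c = a then opY1 q x (Pi.single (a, b) 1) (a, t) else 0)
        + if c = b ∧ a ≠ b then opY1 q x (Pi.single (a, b) 1) (b, t) else 0 := by
    intro c
    by_cases h1 : c = a
    · subst h1; simp +contextual
    · by_cases h2 : c = b
      · subst h2; simp [h1, Ne.symm h1]
      · rw [opY1_single]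
        split_ifs <;> simp_all <;> omega
  have hl : opD (opY1 q x (Pi.single (a, b) 1)) t
      = (if a ≠ t then opY1 q x (Pi.single (a, b) 1) (a, t) else 0)
        + if b ≠ t ∧ a ≠ b then opY1 q x (Pi.single (a, b) 1) (b, t) else 0 := by
    simp only [opD, LinearMap.coe_mk, AddHom.coe_mk]
    rw [Finset.sum_congr rfl fun c _ => if_ctx_congr Iff.rfl (fun _ => hy c) (fun _ => rfl)]
    simp only [ite_add_zero, Finset.sum_add_distrib]
    congr 1
    · rw [Finset.sum_eq_single a] <;> simp +contextual
    · rw [Finset.sum_eq_single b] <;> simp +contextual [ite_and]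
  rw [hl, opY1_single, opY1_single]
  by_cases g : a = b
  · simp only [g, if_true, map_zero, Pi.zero_apply]
    split_ifs <;> first | omega | ring1 | simp_all
  · simp only [g, if_false, opY_single]
    rcases lt_trichotomy a t with h | h | h <;> rcases lt_trichotomy b t with k | k | k <;>
      simp only [g, h, k, h.not_gt, k.not_gt, ne_of_lt, ne_of_gt, lt_irrefl, if_true, if_false,
        Pi.zero_apply] <;>
      split_ifs <;> first | omega | ring1 | (exfalso; simp only [true_and, false_and, and_true, and_false, not_true, ne_eq] at *; done) | (exfalso; simp only [true_and, and_true, not_and, ne_eq] at *; omega) | (subst_vars; ring1)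

theorem opDU_eq : opDU q x = opU q x ∘ₗ opD - opW q x := by
  refine LinearMap.ext fun F => funext fun p => ?_
  obtain ⟨s, t⟩ := p
  simp only [opDU, opW, opU, opD, LinearMap.sub_apply, LinearMap.comp_apply, LinearMap.coe_mk,
    AddHom.coe_mk, Pi.sub_apply]
  by_cases hst : s = t
  · simp [hst]
  have hp : F (t, s) = ∑ c, if c = t then F (c, s) else 0 := by simp
  rw [if_pos hst, if_pos hst, if_neg hst, hp]
  simp only [mul_add, mul_sum, ← sum_add_distrib, ← sum_sub_distrib]
  refine sum_congr rfl fun c _ => ?_
  simp only [qi]
  split_ifs <;> first | omega | ring1 | simp_all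

theorem opI_single (a : Fin N) (p : Fin N × Fin N) :
    opI q x (Pi.single a 1) p = if p.1 < p.2 then
      (x p.1 * if p.2 = a then 1 else 0) + (q - 1) * x p.2 * (if p.1 = a then 1 else 0)
    else if p.2 < p.1 then x p.1 * (if p.2 = a then 1 else 0) else 0 := by
  simp only [opI, LinearMap.coe_mk, AddHom.coe_mk, Pi.single_apply]

set_option maxHeartbeats 4000000 in
/-- Adding a vertex commutes with the newest variable. -/
theorem opI_opY : opI q x ∘ₗ opY q x = opY1 q x ∘ₗ opI q x := by
  refine ext_single1 _ _ fun a => funext fun p => ?_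
  obtain ⟨s, t⟩ := p
  rw [LinearMap.comp_apply, LinearMap.comp_apply]
  have hr : ∀ (P : Fin N → Prop) [DecidablePred P] (u : Fin N),
      (∑ c, if P c then opI q x (Pi.single a 1) (u, c) else 0)
        = (if P a ∧ u ≠ a then x u else 0)
          + if u = a then (q - 1) * ∑ c, if P c ∧ a < c then x c else 0 else 0 := by
    intro P _ u
    have hterm : ∀ c, (if P c then opI q x (Pi.single a 1) (u, c) else 0)
        = (if c = a then (if P c ∧ u ≠ a then x u else 0) else 0)
          + if u = a then (q - 1) * (if P c ∧ a < c then x c else 0) else 0 := by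
      intro c; rw [opI_single]; simp only []
      split_ifs <;> first | omega | ring1 | (subst_vars; ring1) | (exfalso; simp_all) | (exfalso; simp_all; omega)
    rw [sum_congr rfl fun c _ => hterm c, sum_add_distrib, sum_ite_eq']
    simp only [mem_univ, if_true, add_right_inj]
    split_ifs with hu
    · rw [mul_sum]
    · simp
  have hl : ∀ (P : Fin N → Prop) [DecidablePred P] (u : Fin N),
      (∑ c, if P c then opI q x (Pi.single a 1) (c, u) else 0)
        = (if u = a then ∑ c, if P c ∧ c ≠ a then x c else 0 else 0)
          + if P a ∧ a < u then (q - 1) * x u else 0 := by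
    intro P _ u
    have hterm : ∀ c, (if P c then opI q x (Pi.single a 1) (c, u) else 0)
        = (if u = a then (if P c ∧ c ≠ a then x c else 0) else 0)
          + if c = a then (if P c ∧ a < u then (q - 1) * x u else 0) else 0 := by
      intro c; rw [opI_single]; simp only []
      split_ifs <;> first | omega | ring1 | (subst_vars; ring1) | (exfalso; simp_all) | (exfalso; simp_all; omega)
    rw [sum_congr rfl fun c _ => hterm c, sum_add_distrib, sum_ite_eq']
    simp only [mem_univ, if_true, add_left_inj]
    split_ifs with hu
    · rfl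
    · simp
  have eL : opI q x (opY q x (Pi.single a 1)) (s, t) = if s < t then
      x s * opY q x (Pi.single a 1) t + (q - 1) * x t * opY q x (Pi.single a 1) s
    else if t < s then x s * opY q x (Pi.single a 1) t else 0 := rfl
  have eR : ∀ F : Fin N × Fin N → R, opY1 q x F (s, t) = if t < s then
      x t * (F (s, t) + (1 - q) * ∑ c, if c < t then F (s, c) else 0)
    else if s < t then
      x t * (F (s, t) + (1 - q) * F (t, s)
        + (1 - q) * (q * (∑ c, if c < s then F (s, c) else 0)
          + ((∑ c, if s < c ∧ c < t then F (s, c) else 0)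
            + (1 - q) * ∑ c, if s < c ∧ c < t then F (c, s) else 0)))
    else 0 := fun F => rfl
  rw [eL, eR, hr (fun c => c < t) s, hr (fun c => c < s) s,
    hr (fun c => s < c ∧ c < t) s, hl (fun c => s < c ∧ c < t) s]
  simp only [opI_single, opY_single]
  have e0 : ∀ u, (∑ c, if (c < u) ∧ a < c then x c else 0)
      = ∑ c, if a < c ∧ c < u then x c else 0 :=
    fun u => sum_congr rfl fun c _ => by simp [and_comm]
  rcases lt_trichotomy s t with h | h | h
  · by_cases g : s = a
    · subst g
      have e1 : (∑ c, if c < s ∧ s < c then x c else 0) = 0 :=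
        sum_eq_zero fun c _ => if_neg (by omega)
      have e2 : ∀ (d : Prop) [Decidable d],
          (∑ c, if (s < c ∧ c < t) ∧ s < c then x c else 0)
            = ∑ c, if (s < c ∧ c < t) ∧ c ≠ s then x c else 0 :=
        fun d _ => sum_congr rfl fun c _ => if_congr (by omega) rfl rfl
      rw [e1, e2 True]
      split_ifs <;> first | omega | ring1
    · simp only [g, if_false]
      split_ifs <;> first | omega | ring1 | (subst_vars; ring1) | (exfalso; simp_all; omega)
  · simp [h]
  · by_cases g : s = a
    · subst g
      have e1 : (∑ c, if c < t ∧ s < c then x c else 0) = 0 :=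
        sum_eq_zero fun c _ => if_neg (by omega)
      rw [e1]
      split_ifs <;> first | omega | ring1
    · simp only [g, if_false]
      split_ifs <;> first | omega | ring1 | (subst_vars; ring1) | (exfalso; simp_all; omega)

theorem opD_opU (g : Fin N → R) : opD (opU q x g) = tot g • x - opY q x g := by
  funext b
  simp only [opD, opU, opY, tot, LinearMap.coe_mk, AddHom.coe_mk, Pi.sub_apply, Pi.smul_apply,
    smul_eq_mul]
  have hp : g b = ∑ a, if a = b then g a else 0 := by simp
  rw [hp, mul_sum univ _ (1 - q), ← sum_add_distrib, sum_mul, mul_sum univ _ (x b),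
    ← sum_sub_distrib]
  refine sum_congr rfl fun a _ => ?_
  simp only [qi]
  split_ifs <;> first | omega | ring1

end Vale.Agent.P066.Window
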