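import Vale.Agent.P066.Window.Alg

/-!
The clique states and the states with one pendant vertex.
-/

namespace Vale.Agent.P066.Window

variable {N : ℕ} {R : Type*} [CommRing R] [IsDomain R] (q : R) (x : Fin N → R)

/-- Clique states. -/
def mv (r : ℕ) : Fin N × Fin N → R := opM q x r (base2 q x)

/-- Products of two clique states. -/
def mm (a c : ℕ) : Fin N × Fin N → R := opM q x a (mv q x c)

/-- Shifted clique states. -/
def nv (r : ℕ) : Fin N × Fin N → R := opN q x r (base2 q x)

/-- Pendant states. -/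
def uv (r : ℕ) : Fin N × Fin N → R := opU q x (bv q x r)

theorem nv_eq_I (r : ℕ) : nv q x r = opI q x (bv q x r) := by
  induction r with
  | zero => exact (opI_x q x).symm
  | succ r ih =>
    have h := LinearMap.congr_fun (opI_opY q x) (bv q x r)
    simp only [LinearMap.comp_apply] at h
    rw [nv, opN_succ, ← nv, ih, bv, map_sub, map_smul, h, opI_x]

theorem uv_eq_T (r : ℕ) : uv q x r = opT q (nv q x r) := by
  rw [nv_eq_I, opT_opI, uv]

theorem uv_zero : uv q x 0 = base2 q x := opU_x q x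

theorem mv_zero : mv q x 0 = base2 q x := rfl

theorem DU_apply (v : Fin N × Fin N → R) :
    opDU q x v = opU q x (opD v) - opW q x v :=
  LinearMap.congr_fun (opDU_eq q x) v

theorem D_Y1 (v : Fin N × Fin N → R) : opD (opY1 q x v) = opY q x (opD v) :=
  LinearMap.congr_fun (opD_opY1 q x) v

theorem Y_bv (r : ℕ) : opY q x (bv q x r) = es x (r + 1) • x - bv q x (r + 1) := by
  rw [bv]; abel

variable {q}

theorem T_mv (hq : Gen q) (r : ℕ) : opT q (mv q x r) = mv q x r := by
  rw [mv, T_M x hq, opT_base2]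

theorem T_mm (hq : Gen q) (a c : ℕ) : opT q (mm q x a c) = mm q x a c := by
  rw [mm, T_M x hq, T_mv x hq]

theorem mm_comm (hq : Gen q) (a c : ℕ) : mm q x a c = mm q x c a := by
  rw [mm, mm, mv, mv, M_M x hq]

theorem W_sym (v : Fin N × Fin N → R) (h : opT q v = v) :
    opW q x v = q • opY1 q x v := by
  rw [← W_T q x, h]

theorem W_Y1_sym (hq : Gen q) (v : Fin N × Fin N → R) (h : opT q v = v) :
    opW q x (opY1 q x v) = opP (q := q) x v := by
  rw [← T_Y2, ← Y_comm x hq, ← opP_apply, T_P x hq, h]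

theorem nv_succ (hq : Gen q) (r : ℕ) :
    nv q x (r + 1) = mv q x (r + 1) + opY2 q x (mv q x r) := N_eq_M x hq r _

theorem uv_succ (hq : Gen q) (r : ℕ) :
    uv q x (r + 1) = mv q x (r + 1) + q • opY1 q x (mv q x r) := by
  rw [uv_eq_T, nv_succ x hq, map_add, T_mv x hq, T_Y2, W_sym x _ (T_mv x hq r)]

theorem W_uv (r : ℕ) :
    opW q x (uv q x r) = q • (es x (r + 1) • base2 q x - nv q x (r + 1)) := by
  rw [uv_eq_T, W_T, nv, nv, opN_succ]
  congr 1
  abel

theorem D_uv (hq : Gen q) (r : ℕ) :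
    opD (uv q x r) = bv q x (r + 1) + (q * gq q r * es x (r + 1)) • x := by
  rw [uv, opD_opU, tot_bv q x hq.ne1, Y_bv, gq_succ]
  module

theorem D_mv (hq : Gen q) : ∀ r, opD (mv q x r) = gq q (r + 1) • bv q x (r + 1)
  | 0 => by
    have h := D_uv x hq 0
    rw [uv_zero, gq_zero, mul_zero, zero_mul, zero_smul, add_zero] at h
    rw [mv_zero, h, gq_one, one_smul]
  | r + 1 => by
    have h1 : mv q x (r + 1) = uv q x (r + 1) - q • opY1 q x (mv q x r) := by
      rw [uv_succ x hq]; abel
    rw [h1, map_sub, map_smul, D_Y1, D_uv x hq, D_mv hq r, map_smul, Y_bv, gq_succ q (r + 1)]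
    module

theorem DU_mv (hq : Gen q) (r : ℕ) :
    opDU q x (mv q x r) = mv q x (r + 1) + (q * gq q r) • uv q x (r + 1) := by
  rw [DU_apply, D_mv x hq, map_smul, W_sym x _ (T_mv x hq r), ← uv, uv_succ x hq, gq_succ]
  module

theorem DU_uv (hq : Gen q) (r : ℕ) :
    opDU q x (uv q x (r + 1))
      = (uv q x (r + 2) + q • nv q x (r + 2))
        + (q * q * gq q r * es x (r + 2)) • base2 q x := by
  rw [DU_apply, D_uv x hq, map_add, map_smul, opU_x, ← uv, W_uv, gq_succ q r]
  module

theorem aux_one (hq : Gen q) :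
    uv q x 1 - q • (es x 1 • base2 q x - nv q x 1) = mv q x 1 := by
  rw [uv_succ x hq 0, nv_succ x hq 0, opM_one q x, opS_apply, ← mv, mv_zero]
  module

theorem aux_succ (hq : Gen q) (a : ℕ) :
    uv q x (a + 2) - q • (es x (a + 2) • base2 q x - nv q x (a + 2))
      = mv q x (a + 2) - q • opP (q := q) x (mv q x a) := by
  rw [uv_succ x hq, nv_succ x hq, opM_succ_succ q x, opS_apply, ← mv, ← mv, ← mv]
  module

end Vale.Agent.P066.Window
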